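import Vale.Agent.Lib.P067.S.GenH

/-!
# P067 part S, module PGrp: p-groups (for part D)

If g has depth d ≥ 1 (`Dep`), then g^j has depth d and cf d (g^j) = j • cf d g, so in characteristic p the power
g^p has depth d + 1 (`Dep.succ`).  So g^(p^N) has depth N + 1.
* J ≠ ∅, g ∈ HH (Hs k n) J: g^(p^n) ∈ HH J has depth n + 1, hence depth n, so g^(p^n) = 1 (`HH_eq_one`).
* g ∈ U: g^(p^(mn)) has depth mn + 1, so (`Dep.sub_mem` with i = 0) it maps v ∈ M 0 to v + M (mn + 1) ⊆ v + M (mn),
  so it is in Nc.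
-/

namespace Vale.P067.S

open scoped Classical

variable (k : Type*) [Field k] (n : ℕ)

private theorem pgrp_mono {d d' : ℕ} (h : d' ≤ d) {g : U k n} (hg : Dep k n d g) :
    Dep k n d' g := fun a => M_anti k (by omega) (hg a)

private theorem pgrp_pow {d : ℕ} (hd : 0 < d) {g : U k n} (hg : Dep k n d g) (j : ℕ) :
    Dep k n d (g ^ j) ∧ ∀ a, cf k n d (g ^ j) a = (j : k) * cf k n d g a := by
  induction j with
  | zero =>
    rw [pow_zero]
    refine ⟨dep_unit k n d, fun a => ?_⟩
    have h1 := cf_mul k n hd (dep_unit k n d) (dep_unit k n d) a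
    rw [mul_one] at h1
    rw [Nat.cast_zero, zero_mul]
    exact left_eq_add.mp h1
  | succ j ih =>
    rw [pow_succ]
    refine ⟨ih.1.mul k n hg, fun a => ?_⟩
    rw [cf_mul k n hd ih.1 hg, ih.2 a, Nat.cast_succ, add_mul, one_mul]

theorem dep_pow_char (p : ℕ) [CharP k p] (N : ℕ) (g : U k n) : Dep k n (N + 1) (g ^ p ^ N) := by
  induction N with
  | zero =>
    rw [pow_zero, pow_one]
    exact dep_one k n g
  | succ N ih =>
    rw [pow_succ, pow_mul]
    obtain ⟨h1, h2⟩ := pgrp_pow k n (Nat.succ_pos N) ih p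
    refine Dep.succ k n (Nat.succ_pos N) h1 fun a => ?_
    rw [h2 a, CharP.cast_eq_zero, zero_mul]

theorem HH_isPGroup (p : ℕ) [CharP k p] (hn : 0 < n) (J : Finset (Fin n)) (hJ : J.Nonempty) :
    IsPGroup p (HH (Hs k n) J) := by
  intro g
  refine ⟨n, ?_⟩
  apply Subtype.ext
  refine HH_eq_one k n hn J hJ _ (g ^ p ^ n).2 ?_
  exact pgrp_mono k n (Nat.le_succ n) (dep_pow_char k n p n g.1)

theorem Gm_isPGroup (p : ℕ) [CharP k p] (m : ℕ) : IsPGroup p (Gm k n m) := by
  intro g
  induction g using QuotientGroup.induction_on with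
  | H g =>
    refine ⟨m * n, ?_⟩
    rw [← QuotientGroup.mk_pow, QuotientGroup.eq_one_iff]
    intro v hv
    have h1 := (dep_pow_char k n p (m * n) g).sub_mem k n 0 v hv
    refine M_anti k ?_ h1
    push_cast
    omega

end Vale.P067.S
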