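import Vale.Agent.Lib.P067.Defs

/-!
# P067 part S, module Avg: averages over subgroups of a finite group

`PP K φ x` = average of φ over x K (so `av H J0 x φ = PP (HH H J0) φ x` by rfl), `ip φ ψ = ∑ x, φ x ψ x`,
`RInv K φ`: φ is right K-invariant.  `Gam Γ A B c`: |⟨φ,ψ⟩| ≤ c ‖φ‖‖ψ‖ for A-invariant φ and B-invariant ψ
with zero averages over the cosets of Γ.
-/

namespace Vale.P067.S

open scoped Classical

section avg
variable {G : Type*} [Group G]

/-- average over x K -/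
noncomputable def PP (K : Subgroup G) (φ : G → ℝ) (x : G) : ℝ :=
  (∑ᶠ h : K, φ (x * h)) / Nat.card K

/-- right invariant under K -/
def RInv (K : Subgroup G) (φ : G → ℝ) : Prop := ∀ x, ∀ h ∈ K, φ (x * h) = φ x

theorem RInv.mono {K K' : Subgroup G} (h : K ≤ K') {φ : G → ℝ} (hφ : RInv K' φ) : RInv K φ :=
  fun x a ha => hφ x a (h ha)

theorem RInv.add {K : Subgroup G} {φ ψ : G → ℝ} (h : RInv K φ) (h' : RInv K ψ) :
    RInv K (φ + ψ) := fun x a ha => by simp [h x a ha, h' x a ha]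

theorem RInv.sub {K : Subgroup G} {φ ψ : G → ℝ} (h : RInv K φ) (h' : RInv K ψ) :
    RInv K (φ - ψ) := fun x a ha => by simp [h x a ha, h' x a ha]

theorem RInv.smul {K : Subgroup G} {φ : G → ℝ} (c : ℝ) (h : RInv K φ) :
    RInv K (c • φ) := fun x a ha => by simp [h x a ha]

/-- invariance under the generators is invariance under the join -/
theorem RInv.sup {A B : Subgroup G} {φ : G → ℝ} (hA : RInv A φ) (hB : RInv B φ) :
    RInv (A ⊔ B) φ := by
  let T : Subgroup G :=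
    { carrier := {h | ∀ x, φ (x * h) = φ x}
      mul_mem' := by
        intro a b ha hb x
        rw [← mul_assoc, hb, ha]
      one_mem' := by
        intro x
        rw [mul_one]
      inv_mem' := by
        intro a ha x
        have h1 := ha (x * a⁻¹)
        rw [inv_mul_cancel_right] at h1
        exact h1.symm }
  have h1 : A ⊔ B ≤ T := sup_le (fun a ha x => hA x a ha) (fun b hb x => hB x b hb)
  exact fun x h hh => h1 hh x

variable [Fintype G]

/-- inner product -/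
noncomputable def ip (φ ψ : G → ℝ) : ℝ := ∑ x, φ x * ψ x

theorem PP_eq_sum (K : Subgroup G) (φ : G → ℝ) (x : G) :
    PP K φ x = (∑ h : K, φ (x * h)) / Fintype.card K := by
  rw [PP, finsum_eq_sum_of_fintype, Nat.card_eq_fintype_card]

theorem PP_rinv (K : Subgroup G) (φ : G → ℝ) : RInv K (PP K φ) := by
  intro x h hh
  rw [PP_eq_sum, PP_eq_sum]
  congr 1
  refine Fintype.sum_equiv (Equiv.mulLeft (⟨h, hh⟩ : K)) _ _ fun a => ?_
  simp only [Equiv.coe_mulLeft, Subgroup.coe_mul, mul_assoc]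

theorem PP_of_rinv {K : Subgroup G} {φ : G → ℝ} (h : RInv K φ) : PP K φ = φ := by
  funext x
  rw [PP_eq_sum]
  have h1 : ∀ a : K, φ (x * a) = φ x := fun a => h x a a.2
  simp only [h1, Finset.sum_const, Finset.card_univ, nsmul_eq_mul]
  rw [mul_div_cancel_left₀]
  exact_mod_cast Fintype.card_ne_zero

theorem PP_PP_of_le {K K' : Subgroup G} (h : K ≤ K') (φ : G → ℝ) : PP K' (PP K φ) = PP K' φ := by
  funext x
  rw [PP_eq_sum]
  simp only [PP_eq_sum K φ]
  rw [← Finset.sum_div, Finset.sum_comm]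
  have h1 : ∀ a : K, ∑ b : K', φ (x * b * a) = ∑ b : K', φ (x * b) := by
    intro a
    refine Fintype.sum_equiv (Equiv.mulRight (⟨a, h a.2⟩ : K')) _ _ fun b => ?_
    simp only [Equiv.coe_mulRight, Subgroup.coe_mul, mul_assoc]
  simp only [h1, Finset.sum_const, Finset.card_univ, nsmul_eq_mul]
  rw [mul_div_cancel_left₀, PP_eq_sum]
  exact_mod_cast Fintype.card_ne_zero

theorem PP_add (K : Subgroup G) (φ ψ : G → ℝ) : PP K (φ + ψ) = PP K φ + PP K ψ := by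
  funext x
  simp only [PP_eq_sum, Pi.add_apply, Finset.sum_add_distrib, add_div]

theorem PP_sub (K : Subgroup G) (φ ψ : G → ℝ) : PP K (φ - ψ) = PP K φ - PP K ψ := by
  funext x
  simp only [PP_eq_sum, Pi.sub_apply, Finset.sum_sub_distrib, sub_div]

theorem PP_smul (K : Subgroup G) (c : ℝ) (φ : G → ℝ) : PP K (c • φ) = c • PP K φ := by
  funext x
  simp only [PP_eq_sum, Pi.smul_apply, smul_eq_mul, ← Finset.mul_sum, mul_div_assoc]

theorem ip_comm (φ ψ : G → ℝ) : ip φ ψ = ip ψ φ := by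
  exact Finset.sum_congr rfl fun x _ => mul_comm _ _

theorem ip_add_left (φ φ' ψ : G → ℝ) : ip (φ + φ') ψ = ip φ ψ + ip φ' ψ := by
  simp only [ip, Pi.add_apply, add_mul, Finset.sum_add_distrib]

theorem ip_sub_left (φ φ' ψ : G → ℝ) : ip (φ - φ') ψ = ip φ ψ - ip φ' ψ := by
  simp only [ip, Pi.sub_apply, sub_mul, Finset.sum_sub_distrib]

theorem ip_smul_left (c : ℝ) (φ ψ : G → ℝ) : ip (c • φ) ψ = c * ip φ ψ := by
  simp only [ip, Pi.smul_apply, smul_eq_mul, mul_assoc, ← Finset.mul_sum]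

theorem ip_add_right (φ ψ ψ' : G → ℝ) : ip φ (ψ + ψ') = ip φ ψ + ip φ ψ' := by
  rw [ip_comm, ip_add_left, ip_comm ψ, ip_comm ψ']

theorem ip_sub_right (φ ψ ψ' : G → ℝ) : ip φ (ψ - ψ') = ip φ ψ - ip φ ψ' := by
  rw [ip_comm, ip_sub_left, ip_comm ψ, ip_comm ψ']

theorem ip_smul_right (c : ℝ) (φ ψ : G → ℝ) : ip φ (c • ψ) = c * ip φ ψ := by
  rw [ip_comm, ip_smul_left, ip_comm ψ]

theorem ip_self_nonneg (φ : G → ℝ) : 0 ≤ ip φ φ := by
  exact Finset.sum_nonneg fun x _ => mul_self_nonneg _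

theorem ip_self_eq_zero {φ : G → ℝ} (h : ip φ φ = 0) : φ = 0 := by
  funext x
  have h1 := (Finset.sum_eq_zero_iff_of_nonneg (fun x _ => mul_self_nonneg (φ x))).1 h x
    (Finset.mem_univ x)
  exact mul_self_eq_zero.1 h1

/-- Cauchy-Schwarz -/
theorem ip_cs (φ ψ : G → ℝ) : |ip φ ψ| ≤ Real.sqrt (ip φ φ * ip ψ ψ) := by
  apply Real.abs_le_sqrt
  have h1 := Finset.sum_mul_sq_le_sq_mul_sq Finset.univ φ ψ
  have h2 : ∀ χ : G → ℝ, ip χ χ = ∑ x, χ x ^ 2 := fun χ =>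
    Finset.sum_congr rfl fun x _ => (sq _).symm
  rw [h2, h2]
  exact h1

/-- right translations are isometries -/
theorem ip_translate (a : G) (φ ψ : G → ℝ) :
    ip (fun x => φ (x * a)) (fun x => ψ (x * a)) = ip φ ψ := by
  exact Fintype.sum_equiv (Equiv.mulRight a) _ _ fun x => rfl

theorem ip_PP (K : Subgroup G) (φ ψ : G → ℝ) : ip (PP K φ) ψ = ip φ (PP K ψ) := by
  have h1 : ip (PP K φ) ψ = (∑ a : K, ip (fun x => φ (x * a)) ψ) / Fintype.card K := by
    simp only [ip]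
    rw [Finset.sum_comm, Finset.sum_div]
    refine Finset.sum_congr rfl fun x _ => ?_
    rw [PP_eq_sum, div_mul_eq_mul_div, Finset.sum_mul]
  have h2 : ip φ (PP K ψ) = (∑ a : K, ip φ (fun x => ψ (x * a))) / Fintype.card K := by
    simp only [ip]
    rw [Finset.sum_comm, Finset.sum_div]
    refine Finset.sum_congr rfl fun x _ => ?_
    rw [PP_eq_sum, mul_div_assoc', Finset.mul_sum]
  rw [h1, h2]
  congr 1
  refine Fintype.sum_equiv (Equiv.inv K) _ _ fun a => ?_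
  rw [← ip_translate ((a : G)⁻¹) (fun x => φ (x * a)) ψ]
  simp

theorem ip_PP_of_rinv {K : Subgroup G} (φ : G → ℝ) {ψ : G → ℝ} (h : RInv K ψ) :
    ip (PP K φ) ψ = ip φ ψ := by
  rw [ip_PP, PP_of_rinv h]

/-- orthogonal decomposition -/
theorem ip_split (K : Subgroup G) (φ ψ : G → ℝ) :
    ip φ ψ = ip (PP K φ) (PP K ψ) + ip (φ - PP K φ) (ψ - PP K ψ) := by
  have h1 : ip (PP K φ) (ψ - PP K ψ) = 0 := by
    rw [ip_PP, PP_sub, PP_PP_of_le le_rfl, sub_self]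
    simp [ip]
  have h2 : ip (φ - PP K φ) (PP K ψ) = 0 := by
    rw [← ip_PP, PP_sub, PP_PP_of_le le_rfl, sub_self]
    simp [ip]
  have h3 : ip φ ψ = ip (PP K φ + (φ - PP K φ)) (PP K ψ + (ψ - PP K ψ)) := by
    rw [add_sub_cancel, add_sub_cancel]
  rw [h3, ip_add_left, ip_add_right, ip_add_right, h1, h2]
  ring

/-- the two averages are almost orthogonal modulo Γ, with constant c -/
def Gam (Γ A B : Subgroup G) (c : ℝ) : Prop :=
  ∀ φ ψ : G → ℝ, RInv A φ → RInv B ψ → PP Γ φ = 0 → PP Γ ψ = 0 →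
    |ip φ ψ| ≤ c * Real.sqrt (ip φ φ * ip ψ ψ)

theorem Gam.symm {Γ A B : Subgroup G} {c : ℝ} (h : Gam Γ A B c) : Gam Γ B A c := by
  intro φ ψ hφ hψ h1 h2
  rw [ip_comm, mul_comm (ip φ φ)]
  exact h ψ φ hψ hφ h2 h1

theorem Gam.mono {Γ A B : Subgroup G} {c c' : ℝ} (h : Gam Γ A B c) (hc : c ≤ c') :
    Gam Γ A B c' := by
  intro φ ψ hφ hψ h1 h2
  exact (h φ ψ hφ hψ h1 h2).trans (mul_le_mul_of_nonneg_right hc (Real.sqrt_nonneg _))

/-- (‖P_B φ‖² ≤ c² ‖φ‖² for A-invariant φ with zero averages) from Gam -/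
theorem Gam.norm_PP {Γ A B : Subgroup G} {c : ℝ} (hB : B ≤ Γ) (hc : 0 ≤ c)
    (h : Gam Γ A B c) (φ : G → ℝ) (hφ : RInv A φ) (h0 : PP Γ φ = 0) :
    ip (PP B φ) (PP B φ) ≤ c ^ 2 * ip φ φ := by
  have hPP : PP Γ (PP B φ) = 0 := by rw [PP_PP_of_le hB, h0]
  have h1 := h φ (PP B φ) hφ (PP_rinv B φ) h0 hPP
  have h2 : ip φ (PP B φ) = ip (PP B φ) (PP B φ) := by
    rw [← ip_PP_of_rinv φ (PP_rinv B φ)]
  rw [h2] at h1
  obtain ⟨X, hX⟩ : ∃ X, X = ip (PP B φ) (PP B φ) := ⟨_, rfl⟩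
  obtain ⟨F, hF⟩ : ∃ F, F = ip φ φ := ⟨_, rfl⟩
  have hX0 : 0 ≤ X := hX ▸ ip_self_nonneg _
  have hF0 : 0 ≤ F := hF ▸ ip_self_nonneg _
  rw [← hX, ← hF] at h1
  rw [← hX, ← hF]
  rw [abs_of_nonneg hX0] at h1
  rcases hX0.eq_or_lt with h3 | h3
  · rw [← h3]
    positivity
  · have h4 : X ^ 2 ≤ c ^ 2 * (F * X) := by
      have h5 := pow_le_pow_left₀ hX0 h1 2
      rw [mul_pow, Real.sq_sqrt (by positivity)] at h5
      exact h5
    have h6 : X * X ≤ (c ^ 2 * F) * X := by nlinarith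
    exact le_of_mul_le_mul_right h6 h3

/-- converse: a bound for ‖P_B φ‖² gives Gam -/
theorem gam_of_norm_PP {Γ A B : Subgroup G} {c : ℝ} (hc : 0 ≤ c)
    (h : ∀ φ : G → ℝ, RInv A φ → PP Γ φ = 0 → ip (PP B φ) (PP B φ) ≤ c ^ 2 * ip φ φ) :
    Gam Γ A B c := by
  intro φ ψ hφ hψ h0 h0'
  have h1 := h φ hφ h0
  rw [← ip_PP_of_rinv φ hψ]
  refine (ip_cs _ _).trans ?_
  have h2 : c * Real.sqrt (ip φ φ * ip ψ ψ) = Real.sqrt (c ^ 2 * ip φ φ * ip ψ ψ) := by
    rw [mul_assoc, Real.sqrt_mul (sq_nonneg c), Real.sqrt_sq hc]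
  rw [h2]
  exact Real.sqrt_le_sqrt (mul_le_mul_of_nonneg_right h1 (ip_self_nonneg ψ))

end avg

section types
variable {S : Type*} {G : Type*} [Group G]

theorem av_eq_PP (H : S → Subgroup G) (J0 : Finset S) (x : G) (φ : G → ℝ) :
    av H J0 x φ = PP (HH H J0) φ x := rfl

theorem HH_anti (H : S → Subgroup G) {J J' : Finset S} (h : J ⊆ J') : HH H J' ≤ HH H J := by
  exact biInf_mono h

theorem HH_insert_le (H : S → Subgroup G) (s : S) (J : Finset S) : HH H (insert s J) ≤ HH H J :=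
  HH_anti H (Finset.subset_insert s J)

/-- Gam for all pairs of types at the face of type J0 -/
def GS [Fintype G] (H : S → Subgroup G) (J0 : Finset S) (c : ℝ) : Prop :=
  ∀ s t : S, s ∉ J0 → t ∉ J0 → s ≠ t →
    Gam (HH H J0) (HH H (insert s J0)) (HH H (insert t J0)) c

end types

end Vale.P067.S
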