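import Vale.Agent.Lib.P067.S.Root

/-!
# P067 part S, module Gen: the stabilizers are generated by simple root elements

Depth: `Dep k n d g`: g e_a - e_a ∈ M(a + d - 1) for all a; `cf k n d g a` = coefficient of e_{a+d} in g e_a.
* every g ∈ U has depth 1 (d = 1: M(a+1-1)).
* if g has depth d and v ∈ M i then g v - v ∈ M (i + d)  (finite combination of e_b, b > i).
* g (h e_a) - e_a = (g e_a - e_a) + (h e_a - e_a) + [(g - 1)(h e_a - e_a)], the bracket is in M (a + d - 1 + d),
  so for d ≥ 1: depth d is a subgroup property and cf is additive.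
* cf (a + n) = cf a (g commutes with the shift by n).
* depth d and cf d = 0 everywhere ⇒ depth d + 1.
-/

namespace Vale.P067.S

open scoped Classical

variable (k : Type*) [Field k] (n : ℕ)

/-- depth at least d -/
def Dep (d : ℕ) (g : U k n) : Prop :=
  ∀ a : ℤ, (g : E k ≃ₗ[k] E k) (ee k a) - ee k a ∈ M k (a + d - 1)

/-- the coefficient of e_{a+d} in g e_a -/
noncomputable def cf (d : ℕ) (g : U k n) (a : ℤ) : k :=
  ((g : E k ≃ₗ[k] E k) (ee k a)) (a + d)

theorem dep_one (g : U k n) : Dep k n 1 g := by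
  intro a
  have h := g.2.2.1 a
  have e : a + ((1 : ℕ) : ℤ) - 1 = a := by push_cast; ring
  rw [e]
  exact h

theorem dep_unit (d : ℕ) : Dep k n d 1 := by
  intro a
  change ee k a - ee k a ∈ M k (a + d - 1)
  rw [sub_self]
  exact Submodule.zero_mem _

/-- action on M i -/
theorem Dep.sub_mem {d : ℕ} {g : U k n} (hg : Dep k n d g) (i : ℤ) (v : E k) (hv : v ∈ M k i) :
    (g : E k ≃ₗ[k] E k) v - v ∈ M k (i + d) := by
  have hgv : (g : E k ≃ₗ[k] E k) v - v =
      ∑ a ∈ v.support, v a • ((g : E k ≃ₗ[k] E k) (ee k a) - ee k a) := by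
    have h1 : ∑ a ∈ v.support, v a • ee k a = v := by
      conv_rhs => rw [← Finsupp.sum_single v]
      rw [Finsupp.sum]
      refine Finset.sum_congr rfl fun a _ => ?_
      simp [ee]
    simp only [smul_sub, Finset.sum_sub_distrib]
    rw [h1]
    congr 1
    conv_lhs => rw [← h1]
    rw [map_sum]
    exact Finset.sum_congr rfl fun a _ => map_smul _ _ _
  rw [hgv]
  refine Submodule.sum_mem _ fun a ha => Submodule.smul_mem _ _ ?_
  have hai : i < a := by
    by_contra hcon
    exact (Finsupp.mem_support_iff.mp ha) (hv a (not_lt.mp hcon))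
  exact M_anti k (by omega) (hg a)

theorem Dep.mul {d : ℕ} {g h : U k n} (hg : Dep k n d g) (hh : Dep k n d h) :
    Dep k n d (g * h) := by
  intro a
  have h1 : ((g * h : U k n) : E k ≃ₗ[k] E k) (ee k a) - ee k a =
      (g : E k ≃ₗ[k] E k) ((h : E k ≃ₗ[k] E k) (ee k a) - ee k a) +
        ((g : E k ≃ₗ[k] E k) (ee k a) - ee k a) := by
    rw [map_sub, sub_add_sub_cancel]
    rfl
  rw [h1]
  exact Submodule.add_mem _ (U_sub_mem g.2 _ (hh a)) (hg a)

theorem cf_mul {d : ℕ} (hd : 0 < d) {g h : U k n} (hg : Dep k n d g) (hh : Dep k n d h) (a : ℤ) :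
    cf k n d (g * h) a = cf k n d g a + cf k n d h a := by
  have h1 : ((g * h : U k n) : E k ≃ₗ[k] E k) (ee k a) =
      ((g : E k ≃ₗ[k] E k) ((h : E k ≃ₗ[k] E k) (ee k a) - ee k a) -
        ((h : E k ≃ₗ[k] E k) (ee k a) - ee k a)) + ((g : E k ≃ₗ[k] E k) (ee k a)) +
        ((h : E k ≃ₗ[k] E k) (ee k a)) - ee k a := by
    rw [map_sub]
    have e : ((g * h : U k n) : E k ≃ₗ[k] E k) (ee k a) =
      (g : E k ≃ₗ[k] E k) ((h : E k ≃ₗ[k] E k) (ee k a)) := rfl
    rw [e]
    abel
  have h2 : ((g : E k ≃ₗ[k] E k) ((h : E k ≃ₗ[k] E k) (ee k a) - ee k a) -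
        ((h : E k ≃ₗ[k] E k) (ee k a) - ee k a)) (a + d) = 0 :=
    hg.sub_mem k n _ _ (hh a) (a + d) (by omega)
  have h3 : (ee k a) (a + d) = 0 := by
    simp only [ee, Finsupp.single_apply]
    rw [if_neg (by omega)]
  change ((g * h : U k n) : E k ≃ₗ[k] E k) (ee k a) (a + d) = _
  rw [h1, Finsupp.sub_apply, Finsupp.add_apply, Finsupp.add_apply, h2, h3, zero_add, sub_zero]
  rfl

theorem Dep.inv {d : ℕ} (hd : 0 < d) {g : U k n} (hg : Dep k n d g) : Dep k n d g⁻¹ := by
  intro a
  have h1 : ((g⁻¹ : U k n) : E k ≃ₗ[k] E k) (ee k a) - ee k a =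
      -((g⁻¹ : U k n) : E k ≃ₗ[k] E k) ((g : E k ≃ₗ[k] E k) (ee k a) - ee k a) := by
    rw [map_sub, neg_sub]
    congr 1
    exact ((g : E k ≃ₗ[k] E k).symm_apply_apply _).symm
  rw [h1]
  exact Submodule.neg_mem _ (U_sub_mem (g⁻¹).2 _ (hg a))

theorem cf_inv {d : ℕ} (hd : 0 < d) {g : U k n} (hg : Dep k n d g) (a : ℤ) :
    cf k n d g⁻¹ a = - cf k n d g a := by
  have h1 := cf_mul k n hd (hg.inv k n hd) hg a
  rw [inv_mul_cancel] at h1
  have h2 : cf k n d 1 a = 0 := by
    change (ee k a) (a + d) = 0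
    simp only [ee, Finsupp.single_apply]
    rw [if_neg (by omega)]
  rw [h2] at h1
  exact eq_neg_of_add_eq_zero_left h1.symm

theorem cf_period {d : ℕ} (g : U k n) (a b : ℤ) (h : (n : ℤ) ∣ a - b) :
    cf k n d g a = cf k n d g b := by
  have key : ∀ (c : ℕ) (v : E k), (g : E k ≃ₗ[k] E k) (sh k (n * c) v) =
      sh k (n * c) ((g : E k ≃ₗ[k] E k) v) := by
    intro c v
    induction c with
    | zero =>
      have h0 : ∀ w : E k, sh k ((n : ℤ) * ((0 : ℕ) : ℤ)) w = w := by
        intro w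
        ext b
        rw [sh_apply]
        simp
      rw [h0, h0]
    | succ c ih =>
      have h0 : ∀ w : E k, sh k ((n : ℤ) * ((c + 1 : ℕ) : ℤ)) w = sh k n (sh k (n * c) w) := by
        intro w
        ext b
        rw [sh_apply, sh_apply, sh_apply]
        congr 1
        push_cast
        ring
      rw [h0, h0, g.2.1, ih]
  have hsh : ∀ (l b : ℤ), sh k l (ee k b) = ee k (b + l) := by
    intro l b
    ext c
    rw [sh_apply]
    simp only [ee, Finsupp.single_apply]
    by_cases h : b = c - l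
    · rw [if_pos h, if_pos (by omega)]
    · rw [if_neg h, if_neg (by omega)]
  have main : ∀ (c : ℕ) (b : ℤ), cf k n d g (b + n * c) = cf k n d g b := by
    intro c b
    change ((g : E k ≃ₗ[k] E k) (ee k (b + n * c))) (b + n * c + d) =
      ((g : E k ≃ₗ[k] E k) (ee k b)) (b + d)
    rw [← hsh, key, sh_apply]
    congr 1
    ring
  obtain ⟨c, hc⟩ := h
  rcases le_total 0 c with h0 | h0
  · obtain ⟨m, rfl⟩ := Int.eq_ofNat_of_zero_le h0
    have h1 : a = b + n * (m : ℤ) := by linarith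
    rw [h1]
    exact main m b
  · obtain ⟨m, hm⟩ := Int.eq_ofNat_of_zero_le (neg_nonneg.2 h0)
    have h1 : b = a + n * (m : ℤ) := by
      rw [← hm]
      linarith
    rw [h1]
    exact (main m a).symm

theorem Dep.succ {d : ℕ} {g : U k n} (hd : 0 < d) (hg : Dep k n d g)
    (h : ∀ a, cf k n d g a = 0) : Dep k n (d + 1) g := by
  intro a b hb
  rcases lt_or_eq_of_le hb with h1 | h1
  · exact hg a b (by push_cast at h1; omega)
  · have hb' : b = a + d := by
      rw [h1]
      push_cast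
      ring
    subst hb'
    rw [Finsupp.sub_apply]
    have h3 : (ee k a) (a + d) = 0 := by
      simp only [ee, Finsupp.single_apply]
      rw [if_neg (by omega)]
    rw [h3, sub_zero]
    exact h a

theorem dep_rt (l : ℤ) (d : ℕ) (hd : 0 < d ∧ d < n) (c : Multiplicative k) :
    Dep k n d (rt k n l d hd c) := by
  intro a
  have h1 := rt_ee k n l d hd (Multiplicative.toAdd c) a
  rw [ofAdd_toAdd] at h1
  rw [h1, add_sub_cancel_left]
  split_ifs
  · exact Submodule.smul_mem _ _ (ee_mem_M k (by omega))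
  · exact Submodule.zero_mem _

theorem cf_rt (l : ℤ) (d : ℕ) (hd : 0 < d ∧ d < n) (c : k) (a : ℤ) :
    cf k n d (rt k n l d hd (Multiplicative.ofAdd c)) a = if (n : ℤ) ∣ a - l then c else 0 := by
  have h3 : (ee k a) (a + d) = 0 := by
    simp only [ee, Finsupp.single_apply]
    rw [if_neg (by omega)]
  change ((rt k n l d hd (Multiplicative.ofAdd c) : U k n) : E k ≃ₗ[k] E k) (ee k a) (a + d) = _
  rw [rt_ee, Finsupp.add_apply, h3, zero_add]
  split_ifs
  · rw [Finsupp.smul_apply]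
    simp [ee]
  · rfl

end Vale.P067.S
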