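import Vale.Agent.Lib.P067.S.Gen

/-!
# P067 part S, module GenH: the stabilizers HH (Hs k n) J

* g ∈ HH (Hs k n) J, i ≡ s mod n with s ∈ J: g maps L i onto L i (g commutes with the shift by n and
  L (i + n) = sh n (L i)), so for l ≤ i the coefficients (g e_l) b, b > i, vanish.
* so cf d g l = 0 if some i with l ≤ i < l + d has residue in J.
* if J ≠ ∅ and g has depth n then g = 1: for every l there is i with l ≤ i ≤ l + n - 1 with residue in J and
  g e_l - e_l ∈ M(l + n - 1) has no coefficients beyond i.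
* rt_mem: K a subgroup containing all simple root elements rt i 1 c, l ≤ i < l + d: then rt l d c ∈ K:
  induction on d by `rt_rel` (with a = 1: rt l (d+1) c is a product of rt l d (± c), rt (l+d) 1 (± 1)).
* main: Let K = ⨆ r ∈ Jᶜ, (rt r 1).range ≤ HH J (`rt_mem_Hs`, `Subgroup.mem_iInf`).  Claim for d ≤ n, d ≥ 1, by
  induction on n - d: every g ∈ HH J of depth d is in K.  d = n: g = 1.  d < n: for every l : Fin n let
  x_l = rt l d (cf d g l) if no i, l ≤ i < l+d, has residue in J, else x_l = 1.  x_l ∈ K by rt_mem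
  (cf d g l = 0 in the second case).  By induction over a Finset T of Fin n there is y ∈ K (a product) of depth
  d with cf d y a = cf d g a if a ≡ l for some l ∈ T, else 0.  T = univ: y⁻¹ g ∈ HH J has depth d + 1.
-/

namespace Vale.P067.S

open scoped Classical

variable (k : Type*) [Field k] (n : ℕ)

/-- elements of the stabilizer fix all lattices L i with i ≡ s, s ∈ J -/
theorem HH_map_L (J : Finset (Fin n)) (g : U k n) (hg : g ∈ HH (Hs k n) J) (s : Fin n) (hs : s ∈ J)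
    (i : ℤ) (hi : (n : ℤ) ∣ i - ((s : ℕ) : ℤ)) :
    (L k i).map ((g : E k ≃ₗ[k] E k) : E k →ₗ[k] E k) = L k i := by
  have h1 : g ∈ Hs k n s := by
    have h2 := hg
    simp only [HH, Subgroup.mem_iInf] at h2
    exact h2 s hs
  have h3 : (g : E k ≃ₗ[k] E k) ∈ St k ((s : ℕ) : ℤ) := h1
  have h4 : i ≡ ((s : ℕ) : ℤ) [ZMOD n] := by
    refine (Int.modEq_iff_dvd.2 ?_).symm
    exact hi
  exact (U_St_mod g.2 h4).2 h3

theorem HH_coeff (J : Finset (Fin n)) (g : U k n) (hg : g ∈ HH (Hs k n) J) (s : Fin n) (hs : s ∈ J)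
    (i : ℤ) (hi : (n : ℤ) ∣ i - ((s : ℕ) : ℤ)) (l b : ℤ) (hl : l ≤ i) (hb : i < b) :
    ((g : E k ≃ₗ[k] E k) (ee k l)) b = 0 := by
  have h1 := HH_map_L k n J g hg s hs i hi
  have h2 : ee k l ∈ L k i := by
    intro c hc
    simp only [ee, Finsupp.single_apply]
    rw [if_neg (by omega)]
  have h3 : (g : E k ≃ₗ[k] E k) (ee k l) ∈ L k i := by
    rw [← h1]
    exact ⟨ee k l, h2, rfl⟩
  exact h3 b hb

theorem HH_eq_one (hn : 0 < n) (J : Finset (Fin n)) (hJ : J.Nonempty) (g : U k n)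
    (hg : g ∈ HH (Hs k n) J) (hd : Dep k n n g) : g = 1 := by
  apply U_ext_all
  intro l
  obtain ⟨s, hs⟩ := hJ
  have hn' : (0 : ℤ) < n := by exact_mod_cast hn
  have h1 := Int.emod_nonneg (((s : ℕ) : ℤ) - l) hn'.ne'
  have h2 := Int.emod_lt_of_pos (((s : ℕ) : ℤ) - l) hn'
  have h3 := Int.emod_add_mul_ediv (((s : ℕ) : ℤ) - l) n
  set r := (((s : ℕ) : ℤ) - l) % (n : ℤ) with hr
  set q := (((s : ℕ) : ℤ) - l) / (n : ℤ) with hq
  have hdv : (n : ℤ) ∣ (l + r) - ((s : ℕ) : ℤ) := ⟨-q, by linarith⟩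
  have hD := hd l
  have hz : (g : E k ≃ₗ[k] E k) (ee k l) - ee k l = 0 := by
    ext b
    rw [Finsupp.coe_zero, Pi.zero_apply]
    rcases le_or_gt b (l + n - 1) with hb | hb
    · exact hD b hb
    · have h4 := HH_coeff k n J g hg s hs (l + r) hdv l b (by omega) (by omega)
      rw [Finsupp.sub_apply, h4]
      have h5 : ee k l b = 0 := by
        simp only [ee, Finsupp.single_apply]
        rw [if_neg (by omega)]
      rw [h5, sub_zero]
  exact sub_eq_zero.1 hz

theorem rt_mem_of_simple (K : Subgroup (U k n)) (h1 : 0 < 1 ∧ 1 < n) (l : ℤ) (d : ℕ)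
    (hd : 0 < d ∧ d < n)
    (h : ∀ i : ℤ, l ≤ i → i < l + d → ∀ c : Multiplicative k, rt k n i 1 h1 c ∈ K)
    (c : Multiplicative k) : rt k n l d hd c ∈ K := by
  induction d generalizing c with
  | zero => exact absurd hd.1 (lt_irrefl 0)
  | succ d ih =>
    rcases Nat.eq_zero_or_pos d with h0 | h0
    · subst h0
      exact h l le_rfl (by push_cast; omega) c
    · have hd' : 0 < d ∧ d < n := ⟨h0, by omega⟩
      have ih' : ∀ c : Multiplicative k, rt k n l d hd' c ∈ K := by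
        intro c
        refine ih hd' (fun i hi hi' c => h i hi (by push_cast; omega) c) c
      have h1' : ∀ c : Multiplicative k, rt k n (l + d) 1 h1 c ∈ K := fun c =>
        h (l + d) (by omega) (by push_cast; omega) c
      have hrel := rt_rel k n l d hd' hd h1 1 (Multiplicative.toAdd c)
      rw [one_mul] at hrel
      have he : rt k n l (d + 1) hd (Multiplicative.ofAdd (Multiplicative.toAdd c)) =
          (rt k n l d hd' (Multiplicative.ofAdd (Multiplicative.toAdd c)))⁻¹ *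
            (rt k n (l + d) 1 h1 (Multiplicative.ofAdd 1) *
              rt k n l d hd' (Multiplicative.ofAdd (Multiplicative.toAdd c))) *
            (rt k n (l + d) 1 h1 (Multiplicative.ofAdd 1))⁻¹ := by
        rw [hrel]
        group
      have hc : Multiplicative.ofAdd (Multiplicative.toAdd c) = c := rfl
      rw [hc] at he
      rw [he]
      exact K.mul_mem (K.mul_mem (K.inv_mem (ih' c)) (K.mul_mem (h1' _) (ih' c)))
        (K.inv_mem (h1' _))

theorem HH_mem_of_dep (h1 : 0 < 1 ∧ 1 < n) (J : Finset (Fin n)) (hJ : J.Nonempty)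
    (K : Subgroup (U k n)) (hK : K ≤ HH (Hs k n) J)
    (hr : ∀ r : Fin n, r ∉ J → ∀ c : Multiplicative k, rt k n ((r : ℕ) : ℤ) 1 h1 c ∈ K)
    (d : ℕ) (hd : 0 < d) (hdn : d ≤ n) (g : U k n) (hg : g ∈ HH (Hs k n) J) (hD : Dep k n d g) :
    g ∈ K := by
  have hn : 0 < n := by omega
  have hn' : (0 : ℤ) < n := by exact_mod_cast hn
  -- residues
  have hres : ∀ i : ℤ, ∃ r : Fin n, (n : ℤ) ∣ i - ((r : ℕ) : ℤ) := by
    intro i
    have h2 := Int.emod_nonneg i hn'.ne'
    have h3 := Int.emod_lt_of_pos i hn'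
    have h4 := Int.emod_add_mul_ediv i n
    obtain ⟨m, hm⟩ := Int.eq_ofNat_of_zero_le h2
    refine ⟨⟨m, by omega⟩, ⟨i / n, ?_⟩⟩
    change i - ((m : ℕ) : ℤ) = _
    have h5 : ((m : ℕ) : ℤ) = i % n := hm.symm
    rw [h5]
    linarith
  -- simple root elements
  have hsimple : ∀ (i : ℤ), (∀ s : Fin n, s ∈ J → ¬ (n : ℤ) ∣ i - ((s : ℕ) : ℤ)) →
      ∀ c : Multiplicative k, rt k n i 1 h1 c ∈ K := by
    intro i hi c
    obtain ⟨r, hr'⟩ := hres i
    have hrJ : r ∉ J := fun hmem => hi r hmem hr'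
    rw [rt_congr k n i ((r : ℕ) : ℤ) 1 h1 hr']
    exact hr r hrJ c
  -- residues are unique
  have huniq : ∀ (a : ℤ) (l l' : Fin n), (n : ℤ) ∣ a - ((l : ℕ) : ℤ) →
      (n : ℤ) ∣ a - ((l' : ℕ) : ℤ) → l = l' := by
    intro a l l' h h'
    have h2 : (n : ℤ) ∣ ((l' : ℕ) : ℤ) - ((l : ℕ) : ℤ) := by
      have h3 := dvd_sub h h'
      have h4 : a - ((l : ℕ) : ℤ) - (a - ((l' : ℕ) : ℤ)) = ((l' : ℕ) : ℤ) - ((l : ℕ) : ℤ) := by
        ring
      rwa [h4] at h3
    have h5 : ((l : ℕ) : ℤ) % n = ((l' : ℕ) : ℤ) % n := Int.modEq_iff_dvd.2 h2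
    have h6 : ((l : ℕ) : ℤ) % n = ((l : ℕ) : ℤ) :=
      Int.emod_eq_of_lt (by omega) (by exact_mod_cast l.2)
    have h7 : ((l' : ℕ) : ℤ) % n = ((l' : ℕ) : ℤ) :=
      Int.emod_eq_of_lt (by omega) (by exact_mod_cast l'.2)
    rw [h6, h7] at h5
    exact Fin.ext (by exact_mod_cast h5)
  -- downward induction on the depth
  obtain ⟨m, hm⟩ : ∃ m, m = n - d := ⟨_, rfl⟩
  induction m generalizing d g with
  | zero =>
    have hdn' : d = n := by omega
    subst hdn'
    rw [HH_eq_one k d hn J hJ g hg hD]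
    exact K.one_mem
  | succ m ih =>
    have hdlt : d < n := by omega
    have hdd : 0 < d ∧ d < n := ⟨hd, hdlt⟩
    -- the root elements
    have hx : ∀ l : Fin n, rt k n ((l : ℕ) : ℤ) d hdd
        (Multiplicative.ofAdd (cf k n d g ((l : ℕ) : ℤ))) ∈ K := by
      intro l
      by_cases hbad : ∃ (s : Fin n) (i : ℤ), s ∈ J ∧ (n : ℤ) ∣ i - ((s : ℕ) : ℤ) ∧
          ((l : ℕ) : ℤ) ≤ i ∧ i < ((l : ℕ) : ℤ) + d
      · obtain ⟨s, i, hs, hi, hli, hil⟩ := hbad
        have h0 : cf k n d g ((l : ℕ) : ℤ) = 0 :=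
          HH_coeff k n J g hg s hs i hi _ _ hli hil
        rw [h0, ofAdd_zero, map_one]
        exact K.one_mem
      · refine rt_mem_of_simple k n K h1 _ d hdd ?_ _
        intro i hi hi' c
        refine hsimple i (fun s hs hdiv => hbad ⟨s, i, hs, hdiv, hi, hi'⟩) c
    have hT : ∀ T : Finset (Fin n), ∃ y ∈ K, Dep k n d y ∧
        ∀ a : ℤ, cf k n d y a = if ∃ l ∈ T, (n : ℤ) ∣ a - ((l : ℕ) : ℤ) then cf k n d g a else 0 := by
      intro T
      induction T using Finset.induction_on with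
      | empty =>
        refine ⟨1, K.one_mem, dep_unit k n d, ?_⟩
        intro a
        rw [if_neg (by simp)]
        change (ee k a) (a + d) = 0
        simp only [ee, Finsupp.single_apply]
        rw [if_neg (by omega)]
      | insert l T hl ihT =>
        obtain ⟨y, hyK, hyD, hy⟩ := ihT
        refine ⟨y * rt k n ((l : ℕ) : ℤ) d hdd
          (Multiplicative.ofAdd (cf k n d g ((l : ℕ) : ℤ))), K.mul_mem hyK (hx l),
          Dep.mul k n hyD (dep_rt k n _ d hdd _), ?_⟩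
        intro a
        rw [cf_mul k n hd hyD (dep_rt k n _ d hdd _), hy, cf_rt k n]
        by_cases hal : (n : ℤ) ∣ a - ((l : ℕ) : ℤ)
        · rw [if_pos hal]
          rw [if_neg, if_pos ⟨l, Finset.mem_insert_self l T, hal⟩, zero_add]
          · exact (cf_period k n g a _ hal).symm
          · rintro ⟨l', hl', hal'⟩
            exact hl (huniq a l l' hal hal' ▸ hl')
        · rw [if_neg hal, add_zero]
          by_cases hex : ∃ l ∈ T, (n : ℤ) ∣ a - ((l : ℕ) : ℤ)
          · rw [if_pos hex]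
            obtain ⟨l', hl', hal'⟩ := hex
            rw [if_pos ⟨l', Finset.mem_insert_of_mem hl', hal'⟩]
          · rw [if_neg hex, if_neg]
            rintro ⟨l', hl', hal'⟩
            rcases Finset.mem_insert.1 hl' with h | h
            · subst h
              exact hal hal'
            · exact hex ⟨l', h, hal'⟩
    obtain ⟨y, hyK, hyD, hy⟩ := hT Finset.univ
    have hy' : ∀ a, cf k n d y a = cf k n d g a := by
      intro a
      obtain ⟨r, hr'⟩ := hres a
      rw [hy, if_pos ⟨r, Finset.mem_univ r, hr'⟩]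
    have hyi : Dep k n d y⁻¹ := Dep.inv k n hd hyD
    have hz : Dep k n (d + 1) (y⁻¹ * g) := by
      refine Dep.succ k n hd (Dep.mul k n hyi hD) ?_
      intro a
      rw [cf_mul k n hd hyi hD, cf_inv k n hd hyD, hy', neg_add_cancel]
    have hzH : y⁻¹ * g ∈ HH (Hs k n) J := (HH (Hs k n) J).mul_mem
      ((HH (Hs k n) J).inv_mem (hK hyK)) hg
    have hzK := ih (d + 1) (by omega) (by omega) (y⁻¹ * g) hzH hz (by omega)
    have : g = y * (y⁻¹ * g) := by group
    rw [this]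
    exact K.mul_mem hyK hzK

theorem HH_Hs_eq (h1 : 0 < 1 ∧ 1 < n) (J : Finset (Fin n)) (hJ : J.Nonempty) :
    HH (Hs k n) J = ⨆ r ∈ Jᶜ, (rt k n ((r : ℕ) : ℤ) 1 h1).range := by
  have hle : (⨆ r ∈ Jᶜ, (rt k n ((r : ℕ) : ℤ) 1 h1).range) ≤ HH (Hs k n) J := by
    refine iSup₂_le fun r hr => ?_
    rintro _ ⟨c, rfl⟩
    simp only [HH, Subgroup.mem_iInf]
    intro s hs
    refine rt_mem_Hs k n _ h1 s ?_ c
    intro hdiv
    have hrs : r ≠ s := by
      rintro rfl
      exact (Finset.mem_compl.1 hr) hs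
    apply hrs
    obtain ⟨q, hq⟩ := hdiv
    have h2 : ((s : ℕ) : ℤ) < n := by exact_mod_cast s.2
    have h3 : ((r : ℕ) : ℤ) < n := by exact_mod_cast r.2
    have h4 : (0 : ℤ) ≤ ((s : ℕ) : ℤ) := by omega
    have h5 : (0 : ℤ) ≤ ((r : ℕ) : ℤ) := by omega
    have hn' : (0 : ℤ) < n := by omega
    have hq0 : q = 0 := by
      rcases lt_trichotomy q 0 with h | h | h
      · nlinarith
      · exact h
      · nlinarith
    rw [hq0, mul_zero] at hq
    exact Fin.ext (by omega)
  apply le_antisymm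
  · intro g hg
    refine HH_mem_of_dep k n h1 J hJ _ hle ?_ 1 one_pos (by omega) g hg (dep_one k n g)
    intro r hr c
    have hr' : r ∈ Jᶜ := Finset.mem_compl.2 hr
    exact (le_iSup₂_of_le (f := fun (r : Fin n) (_ : r ∈ Jᶜ) =>
      (rt k n ((r : ℕ) : ℤ) 1 h1).range) r hr' le_rfl) ⟨c, rfl⟩
  · exact hle

end Vale.P067.S
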