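import Vale.Agent.Lib.P067.S.Avg

/-!
# P067 part S, module Heis: rank two

gam_comm: for A-invariant φ the function PP B φ is B-invariant, and A-invariant because A and B commute
(PP B φ (x a) = avg_b φ(x a b) = avg_b φ(x b a) = PP B φ x), so it is A ⊔ B invariant (`RInv.sup`) and equal to
PP (A ⊔ B) (PP B φ) = PP (A ⊔ B) φ = 0; then ip φ ψ = ip φ (PP B ψ) = ip (PP B φ) ψ = 0.

gam_heis.  Write A, B, Z for the three ranges, q = |k|, Γ = A ⊔ B, T_g φ = (x ↦ φ (x g)).
Averages over a range are averages over k (`PP_range`: the fibres of a homomorphism have equal size).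
Let φ be A-invariant with PP Γ φ = 0, φ_Z = PP Z φ.
(1) for b ≠ 0 : ip φ (T_b φ) = ip φ (T_b φ_Z).  Indeed for every a, by `ip_translate` and A-invariance,
    ∑_x φ(x) φ(x b) = ∑_x φ(x a⁻¹) φ(x b) = ∑_x φ(x) φ(x a b) = ∑_x φ(x) φ(x b z(ab) a)
    = ∑_x φ(x) φ(x b z(ab)); average over a ∈ k: a b runs over k exactly once.
(2) φ_Z is A-invariant (Z commutes with A).
(3) ip (PP B φ) (PP B φ) = ip φ (PP B φ) = (1/q) ∑_b ip φ (T_b φ)
    = (1/q) (ip φ φ - ip φ φ_Z) + (1/q) ∑_b ip φ (T_b φ_Z) = (1/q)(ip φ φ - ip φ_Z φ_Z) + ip φ (PP B φ_Z).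
(4) PP B φ_Z is B-invariant, Z-invariant (Z commutes with B) and A-invariant:
    φ_Z(x a b) = φ_Z(x b z a) = φ_Z(x b z) [φ_Z is A-inv] = φ_Z(x b), so PP B φ_Z (x a) = PP B φ_Z (x).
    So it is Γ-invariant, hence equal to PP Γ of itself; PP Γ (PP B φ_Z) = PP Γ φ_Z = PP Γ (PP Z φ); Z ≤ Γ because
    z(c) = b⁻¹ a b a⁻¹ with a = c, b = 1; so it is PP Γ φ = 0.
So ip (PP B φ) (PP B φ) ≤ (1/q) ip φ φ; conclude by `gam_of_norm_PP` with c = 1/√q.
-/

namespace Vale.P067.S

open scoped Classical

variable {G : Type*} [Group G] [Fintype G]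

/-- averaging over the range of a homomorphism -/
theorem PP_range {K : Type*} [Group K] [Fintype K] (f : K →* G) (φ : G → ℝ) (x : G) :
    PP f.range φ x = (∑ a : K, φ (x * f a)) / Fintype.card K := by
  have key : ∀ g : G → ℝ, ∑ a : K, g (f a)
      = ((Finset.univ.filter fun a : K => f a = 1).card : ℝ) * ∑ h : f.range, g h := by
    intro g
    have h1 : ∑ a : K, g (f a)
        = ∑ h : f.range, ∑ a ∈ Finset.univ.filter (fun a : K => f.rangeRestrict a = h),
          g (f a) :=
      (Finset.sum_fiberwise (s := Finset.univ) (g := fun a : K => f.rangeRestrict a)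
        (f := fun a => g (f a))).symm
    rw [h1, Finset.mul_sum]
    refine Finset.sum_congr rfl fun h _ => ?_
    have h2 : ∀ a ∈ Finset.univ.filter (fun a : K => f.rangeRestrict a = h),
        g (f a) = g h := by
      intro a ha
      have h3 := (Finset.mem_filter.mp ha).2
      rw [← h3]
      rfl
    rw [Finset.sum_congr rfl h2, Finset.sum_const, nsmul_eq_mul]
    congr 2
    have h4 : (Finset.univ.filter fun a : K => f.rangeRestrict a = h)
        = Finset.univ.filter fun a : K => f a = h := by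
      ext a
      simp only [Finset.mem_filter, Finset.mem_univ, true_and]
      constructor
      · intro h5
        rw [← h5]
        rfl
      · intro h5
        exact Subtype.ext h5
    rw [h4]
    obtain ⟨y, hy⟩ := h.2
    exact MonoidHom.card_fiber_eq_of_mem_range f ⟨y, hy⟩ ⟨1, map_one f⟩
  have hc : (0 : ℝ) < ((Finset.univ.filter fun a : K => f a = 1).card : ℝ) := by
    exact_mod_cast Finset.card_pos.mpr ⟨1, by simp⟩
  have h1 := key (fun _ => 1)
  have h2 := key (fun y => φ (x * y))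
  simp only [Finset.sum_const, Finset.card_univ, nsmul_eq_mul, mul_one] at h1
  rw [PP_eq_sum, h2, h1]
  rw [mul_div_mul_left _ _ hc.ne']
  have h6 : ∀ i1 i2 i3 i4 : Fintype f.range,
      (@Finset.sum f.range ℝ _ (@Finset.univ f.range i1) (fun h => φ (x * h))) /
        (@Fintype.card f.range i2 : ℝ) =
      (@Finset.sum f.range ℝ _ (@Finset.univ f.range i3) (fun h => φ (x * h))) /
        (@Fintype.card f.range i4 : ℝ) := by
    intro i1 i2 i3 i4
    rw [Subsingleton.elim i1 i3, Subsingleton.elim i2 i4]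
  exact h6 _ _ _ _

private theorem rinv_PP_comm {A K : Subgroup G} (hcomm : ∀ a ∈ A, ∀ h ∈ K, a * h = h * a)
    {φ : G → ℝ} (hφ : RInv A φ) : RInv A (PP K φ) := by
  intro x a ha
  rw [PP_eq_sum, PP_eq_sum]
  congr 1
  refine Finset.sum_congr rfl fun h _ => ?_
  rw [mul_assoc, hcomm a ha h h.2, ← mul_assoc]
  exact hφ _ a ha

theorem gam_comm (A B : Subgroup G) (hcomm : ∀ a ∈ A, ∀ b ∈ B, a * b = b * a) :
    Gam (A ⊔ B) A B 0 := by
  intro φ ψ hφ hψ h0 _
  have h1 : RInv A (PP B φ) := rinv_PP_comm hcomm hφ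
  have h3 : RInv (A ⊔ B) (PP B φ) := h1.sup (PP_rinv B φ)
  have h4 : PP (A ⊔ B) (PP B φ) = PP B φ := PP_of_rinv h3
  rw [PP_PP_of_le le_sup_right φ, h0] at h4
  have h5 : ip φ ψ = 0 := by
    rw [← ip_PP_of_rinv φ hψ, ← h4]
    simp [ip]
  rw [h5, abs_zero, zero_mul]

omit [Group G] in
private theorem ip_sum_right {κ : Type*} (s : Finset κ) (φ : G → ℝ) (f : κ → G → ℝ) :
    ip φ (fun x => ∑ b ∈ s, f b x) = ∑ b ∈ s, ip φ (f b) := by
  unfold ip
  rw [Finset.sum_comm]
  refine Finset.sum_congr rfl fun x _ => ?_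
  rw [Finset.mul_sum]

theorem gam_heis {k : Type*} [Field k] [Fintype k] (xA xB xZ : Multiplicative k →* G)
    (hZA : ∀ a c : Multiplicative k, xZ c * xA a = xA a * xZ c)
    (hZB : ∀ b c : Multiplicative k, xZ c * xB b = xB b * xZ c)
    (hrel : ∀ a b : k, xA (Multiplicative.ofAdd a) * xB (Multiplicative.ofAdd b) =
      xB (Multiplicative.ofAdd b) * xZ (Multiplicative.ofAdd (a * b)) *
        xA (Multiplicative.ofAdd a)) :
    Gam (xA.range ⊔ xB.range) xA.range xB.range (1 / Real.sqrt (Fintype.card k)) := by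
  have hq : (0 : ℝ) < Fintype.card k := by exact_mod_cast Fintype.card_pos
  have hPP : ∀ (f : Multiplicative k →* G) (φ : G → ℝ) (x : G),
      PP f.range φ x = (∑ a : k, φ (x * f (Multiplicative.ofAdd a))) / Fintype.card k := by
    intro f φ x
    rw [PP_range, Fintype.card_multiplicative]
    congr 1
    exact (Fintype.sum_equiv Multiplicative.ofAdd _ _ (fun a => rfl)).symm
  refine gam_of_norm_PP (by positivity) fun φ hφ h0 => ?_
  have hφA : ∀ x a, φ (x * xA a) = φ x := fun x a => hφ x _ ⟨a, rfl⟩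
  set φZ := PP xZ.range φ with hφZ
  -- step 2
  have hZcomm : ∀ a ∈ xA.range, ∀ h ∈ xZ.range, a * h = h * a := by
    rintro _ ⟨a, rfl⟩ _ ⟨c, rfl⟩
    exact (hZA a c).symm
  have h2 : RInv xA.range φZ := rinv_PP_comm hZcomm hφ
  have h2' : ∀ x a, φZ (x * xA a) = φZ x := fun x a => h2 x _ ⟨a, rfl⟩
  have h2Z : ∀ x c, φZ (x * xZ c) = φZ x := fun x c => PP_rinv _ φ x _ ⟨c, rfl⟩
  -- step 1
  have h1 : ∀ b : k, b ≠ 0 →
      ip φ (fun x => φ (x * xB (Multiplicative.ofAdd b)))
        = ip φ (fun x => φZ (x * xB (Multiplicative.ofAdd b))) := by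
    intro b hb
    have h3 : ∀ a : k, ip φ (fun x => φ (x * xB (Multiplicative.ofAdd b)))
        = ip φ (fun x => φ (x * xB (Multiplicative.ofAdd b) *
          xZ (Multiplicative.ofAdd (a * b)))) := by
      intro a
      rw [← ip_translate (xA (Multiplicative.ofAdd a)) φ
        (fun x => φ (x * xB (Multiplicative.ofAdd b)))]
      unfold ip
      refine Finset.sum_congr rfl fun x _ => ?_
      simp only []
      rw [hφA, mul_assoc x, hrel a b]
      congr 1
      have h4 : x * (xB (Multiplicative.ofAdd b) * xZ (Multiplicative.ofAdd (a * b)) *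
          xA (Multiplicative.ofAdd a))
          = (x * xB (Multiplicative.ofAdd b) * xZ (Multiplicative.ofAdd (a * b))) *
            xA (Multiplicative.ofAdd a) := by
        simp only [mul_assoc]
      rw [h4, hφA]
    have h5 : (Fintype.card k : ℝ) * ip φ (fun x => φ (x * xB (Multiplicative.ofAdd b)))
        = (Fintype.card k : ℝ) * ip φ (fun x => φZ (x * xB (Multiplicative.ofAdd b))) := by
      calc (Fintype.card k : ℝ) * ip φ (fun x => φ (x * xB (Multiplicative.ofAdd b)))
          = ∑ _a : k, ip φ (fun x => φ (x * xB (Multiplicative.ofAdd b))) := by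
            rw [Finset.sum_const, Finset.card_univ, nsmul_eq_mul]
        _ = ∑ a : k, ip φ (fun x => φ (x * xB (Multiplicative.ofAdd b) *
              xZ (Multiplicative.ofAdd (a * b)))) := Finset.sum_congr rfl fun a _ => h3 a
        _ = ip φ (fun x => ∑ a : k, φ (x * xB (Multiplicative.ofAdd b) *
              xZ (Multiplicative.ofAdd (a * b)))) := (ip_sum_right _ _ _).symm
        _ = ip φ ((Fintype.card k : ℝ) • fun x => φZ (x * xB (Multiplicative.ofAdd b))) := by
            congr 1
            funext x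
            rw [Pi.smul_apply, smul_eq_mul, hφZ, hPP]
            rw [mul_div_cancel₀ _ hq.ne']
            exact Fintype.sum_equiv (Equiv.mulRight₀ b hb) _ _ (fun a => by
              rw [Equiv.mulRight₀_apply])
        _ = (Fintype.card k : ℝ) * ip φ (fun x => φZ (x * xB (Multiplicative.ofAdd b))) :=
            ip_smul_right _ _ _
    exact mul_left_cancel₀ hq.ne' h5
  -- step 3
  have hB : ∀ ψ : G → ℝ, ip φ (PP xB.range ψ)
      = (∑ b : k, ip φ (fun x => ψ (x * xB (Multiplicative.ofAdd b)))) / Fintype.card k := by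
    intro ψ
    have h6 : PP xB.range ψ = ((Fintype.card k : ℝ)⁻¹) •
        (fun x => ∑ b : k, ψ (x * xB (Multiplicative.ofAdd b))) := by
      funext x
      rw [hPP, Pi.smul_apply, smul_eq_mul, div_eq_inv_mul]
    rw [h6, ip_smul_right, ip_sum_right, div_eq_inv_mul]
  have h7 : ip (PP xB.range φ) (PP xB.range φ) = ip φ (PP xB.range φ) := by
    rw [ip_PP, PP_of_rinv (PP_rinv xB.range φ)]
  have h8 : ip φ φZ = ip φZ φZ := by
    conv_rhs => rw [hφZ, ip_PP, PP_of_rinv (PP_rinv xZ.range φ)]
  -- step 4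
  have h9 : PP xB.range φZ = 0 := by
    have hA : RInv xA.range (PP xB.range φZ) := by
      rintro x _ ⟨a, rfl⟩
      rw [hPP, hPP]
      congr 1
      refine Finset.sum_congr rfl fun b _ => ?_
      have h10 : x * xA a * xB (Multiplicative.ofAdd b)
          = (x * xB (Multiplicative.ofAdd b) *
            xZ (Multiplicative.ofAdd (Multiplicative.toAdd a * b))) * xA a := by
        have h11 := hrel (Multiplicative.toAdd a) b
        rw [ofAdd_toAdd] at h11
        rw [mul_assoc x, h11]
        simp only [mul_assoc]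
      rw [h10, h2', h2Z]
    have hΓ : RInv (xA.range ⊔ xB.range) (PP xB.range φZ) := hA.sup (PP_rinv _ _)
    have hZle : xZ.range ≤ xA.range ⊔ xB.range := by
      rintro _ ⟨c, rfl⟩
      have h12 := hrel (Multiplicative.toAdd c) 1
      rw [mul_one, ofAdd_toAdd] at h12
      have h13 : xZ c = (xB (Multiplicative.ofAdd 1))⁻¹ * (xA c * xB (Multiplicative.ofAdd 1)) *
          (xA c)⁻¹ := by
        rw [h12]
        group
      rw [h13]
      have hA' : xA c ∈ xA.range ⊔ xB.range :=
        (le_sup_left : xA.range ≤ xA.range ⊔ xB.range) ⟨c, rfl⟩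
      have hB' : xB (Multiplicative.ofAdd 1) ∈ xA.range ⊔ xB.range :=
        (le_sup_right : xB.range ≤ xA.range ⊔ xB.range) ⟨_, rfl⟩
      exact Subgroup.mul_mem _ (Subgroup.mul_mem _ (Subgroup.inv_mem _ hB')
        (Subgroup.mul_mem _ hA' hB')) (Subgroup.inv_mem _ hA')
    rw [← PP_of_rinv hΓ, PP_PP_of_le le_sup_right, hφZ, PP_PP_of_le hZle, h0]
  have h14 : ip φ (PP xB.range φZ) = 0 := by
    rw [h9]
    simp [ip]
  have h15 : ∑ b : k, ip φ (fun x => φ (x * xB (Multiplicative.ofAdd b)))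
      - ∑ b : k, ip φ (fun x => φZ (x * xB (Multiplicative.ofAdd b)))
      = ip φ φ - ip φ φZ := by
    rw [← Finset.sum_sub_distrib, Finset.sum_eq_single (0 : k)]
    · rw [ofAdd_zero, map_one]
      simp only [mul_one]
    · intro b _ hb
      rw [h1 b hb, sub_self]
    · intro h16
      exact absurd (Finset.mem_univ _) h16
  have h17 := hB φ
  have h18 := hB φZ
  rw [h14] at h18
  have h19 : ∑ b : k, ip φ (fun x => φZ (x * xB (Multiplicative.ofAdd b))) = 0 := by
    have := h18.symm
    rw [div_eq_zero_iff] at this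
    rcases this with h20 | h20
    · exact h20
    · exact absurd h20 hq.ne'
  rw [h19, sub_zero] at h15
  rw [h7, h17, h15, h8, div_pow, one_pow, Real.sq_sqrt hq.le, one_div, ← div_eq_inv_mul]
  have h21 := ip_self_nonneg φZ
  gcongr
  linarith

end Vale.P067.S
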