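import Vale.Agent.Lib.P067.S.Avg

/-!
# P067 part S, module Strict: strictness from generation

The set of pairs (φ, ψ), φ A-invariant, ψ B-invariant, PP Γ φ = 0 = PP Γ ψ, ip φ φ = 1 = ip ψ ψ is a closed and
bounded subset of (G → ℝ) × (G → ℝ), so compact (all maps are continuous: finite sums of coordinates; write
PP with `PP_eq_sum`; |φ x| ≤ 1).  If it is empty take g = 0 (if φ ≠ 0 ≠ ψ normalise by 1/√(ip φ φ); if φ = 0 or
ψ = 0 the inequality is trivial).  Otherwise let g = max of |ip φ ψ| on it (≤ 1 by `ip_cs`); it is < 1: if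
|ip φ ψ| = 1 then ip (φ ∓ ψ) (φ ∓ ψ) = 0, so φ = ±ψ, so φ is A- and B-invariant, so A ⊔ B-invariant
(`RInv.sup`), so Γ-invariant, so φ = PP Γ φ = 0 (`PP_of_rinv`), contradiction to ip φ φ = 1.
-/

namespace Vale.P067.S

open scoped Classical

section strict
variable {G : Type*} [Group G] [Fintype G]

/-- the set of normalised pairs -/
private def SP (Γ A B : Subgroup G) : Set ((G → ℝ) × (G → ℝ)) :=
  {p | RInv A p.1 ∧ RInv B p.2 ∧ PP Γ p.1 = 0 ∧ PP Γ p.2 = 0 ∧ ip p.1 p.1 = 1 ∧ ip p.2 p.2 = 1}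

omit [Group G] in
private theorem continuous_ip {α : Type*} [TopologicalSpace α] {f g : α → G → ℝ}
    (hf : Continuous f) (hg : Continuous g) : Continuous fun a => ip (f a) (g a) := by
  unfold ip
  exact continuous_finsetSum _ fun x _ =>
    ((continuous_apply x).comp hf).mul ((continuous_apply x).comp hg)

private theorem continuous_PP (K : Subgroup G) {α : Type*} [TopologicalSpace α] {f : α → G → ℝ}
    (hf : Continuous f) : Continuous fun a => PP K (f a) := by
  refine continuous_pi fun x => ?_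
  have h1 : (fun a => PP K (f a) x) = fun a => (∑ h : K, f a (x * h)) / Fintype.card K := by
    funext a
    exact PP_eq_sum K (f a) x
  rw [h1]
  have h2 : ∀ h : K, Continuous fun a => f a (x * h) := fun h =>
    (continuous_apply (x * (h : G))).comp hf
  exact (continuous_finsetSum _ fun h _ => h2 h).div_const _

omit [Fintype G] in
private theorem isClosed_rinv (K : Subgroup G) {α : Type*} [TopologicalSpace α] {f : α → G → ℝ}
    (hf : Continuous f) : IsClosed {a | RInv K (f a)} := by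
  have h1 : {a | RInv K (f a)} = ⋂ x : G, ⋂ h : G, ⋂ _ : h ∈ K, {a | f a (x * h) = f a x} := by
    ext a
    simp [RInv]
  rw [h1]
  refine isClosed_iInter fun x => isClosed_iInter fun h => isClosed_iInter fun _ => ?_
  exact isClosed_eq ((continuous_apply _).comp hf) ((continuous_apply _).comp hf)

omit [Group G] in
private theorem abs_le_of_ip {φ : G → ℝ} (h : ip φ φ = 1) (x : G) : |φ x| ≤ 1 := by
  have h1 : φ x * φ x ≤ ∑ y, φ y * φ y :=
    Finset.single_le_sum (f := fun y => φ y * φ y) (fun y _ => mul_self_nonneg _)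
      (Finset.mem_univ x)
  have h2 : φ x * φ x ≤ 1 := h1.trans (le_of_eq h)
  rw [abs_le]
  constructor <;> nlinarith

private theorem isCompact_SP (Γ A B : Subgroup G) : IsCompact (SP Γ A B) := by
  refine Metric.isCompact_of_isClosed_isBounded ?_ ?_
  · have h1 : SP Γ A B = {p | RInv A p.1} ∩ ({p | RInv B p.2} ∩ ({p | PP Γ p.1 = 0} ∩
        ({p | PP Γ p.2 = 0} ∩ ({p | ip p.1 p.1 = 1} ∩ {p | ip p.2 p.2 = 1})))) := by
      ext p
      rfl
    rw [h1]
    refine (isClosed_rinv A continuous_fst).inter ((isClosed_rinv B continuous_snd).inter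
      ((isClosed_eq (continuous_PP Γ continuous_fst) continuous_const).inter
      ((isClosed_eq (continuous_PP Γ continuous_snd) continuous_const).inter
      ((isClosed_eq (continuous_ip continuous_fst continuous_fst) continuous_const).inter
      (isClosed_eq (continuous_ip continuous_snd continuous_snd) continuous_const)))))
  · refine (Metric.isBounded_closedBall (x := (0 : (G → ℝ) × (G → ℝ))) (r := 1)).subset ?_
    rintro ⟨φ, ψ⟩ ⟨-, -, -, -, h5, h6⟩
    rw [mem_closedBall_zero_iff, Prod.norm_def]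
    refine max_le ?_ ?_
    · exact (pi_norm_le_iff_of_nonneg zero_le_one).mpr fun x => abs_le_of_ip h5 x
    · exact (pi_norm_le_iff_of_nonneg zero_le_one).mpr fun x => abs_le_of_ip h6 x

private theorem ip_self_pos {φ : G → ℝ} (h : φ ≠ 0) : 0 < ip φ φ :=
  lt_of_le_of_ne (ip_self_nonneg φ) fun h0 => h (ip_self_eq_zero h0.symm)

private theorem PP_zero' (K : Subgroup G) (c : ℝ) {φ : G → ℝ} (h : PP K φ = 0) :
    PP K (c • φ) = 0 := by
  rw [PP_smul, h, smul_zero]

private theorem ip_normal {φ : G → ℝ} (h : φ ≠ 0) :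
    ip ((Real.sqrt (ip φ φ))⁻¹ • φ) ((Real.sqrt (ip φ φ))⁻¹ • φ) = 1 := by
  have h0 := ip_self_pos h
  rw [ip_smul_left, ip_smul_right, ← mul_assoc, ← mul_inv, Real.mul_self_sqrt h0.le,
    inv_mul_cancel₀ h0.ne']

private theorem gam_of_SP (Γ A B : Subgroup G) {g : ℝ} (hg : 0 ≤ g)
    (h : ∀ p ∈ SP Γ A B, |ip p.1 p.2| ≤ g) : Gam Γ A B g := by
  intro φ ψ hA hB h0 h0'
  by_cases hφ : φ = 0
  · have h1 : ip φ ψ = 0 := by
      rw [hφ]
      simp [ip]
    rw [h1, abs_zero]
    exact mul_nonneg hg (Real.sqrt_nonneg _)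
  by_cases hψ : ψ = 0
  · have h1 : ip φ ψ = 0 := by
      rw [hψ]
      simp [ip]
    rw [h1, abs_zero]
    exact mul_nonneg hg (Real.sqrt_nonneg _)
  have hp := ip_self_pos hφ
  have hq := ip_self_pos hψ
  have h1 := h ((Real.sqrt (ip φ φ))⁻¹ • φ, (Real.sqrt (ip ψ ψ))⁻¹ • ψ)
    ⟨hA.smul _, hB.smul _, PP_zero' Γ _ h0, PP_zero' Γ _ h0', ip_normal hφ, ip_normal hψ⟩
  change |ip ((Real.sqrt (ip φ φ))⁻¹ • φ) ((Real.sqrt (ip ψ ψ))⁻¹ • ψ)| ≤ g at h1
  have ha : 0 < Real.sqrt (ip φ φ) := Real.sqrt_pos.mpr hp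
  have hb : 0 < Real.sqrt (ip ψ ψ) := Real.sqrt_pos.mpr hq
  rw [ip_smul_left, ip_smul_right, abs_mul, abs_mul, abs_of_pos (inv_pos.mpr ha),
    abs_of_pos (inv_pos.mpr hb)] at h1
  rw [Real.sqrt_mul hp.le]
  have h2 : |ip φ ψ| = (Real.sqrt (ip φ φ) * Real.sqrt (ip ψ ψ)) *
      ((Real.sqrt (ip φ φ))⁻¹ * ((Real.sqrt (ip ψ ψ))⁻¹ * |ip φ ψ|)) := by
    field_simp
  rw [h2, mul_comm g]
  exact mul_le_mul_of_nonneg_left h1 (mul_pos ha hb).le

private theorem ne_one_of_SP (Γ A B : Subgroup G) (hgen : Γ ≤ A ⊔ B) {p : (G → ℝ) × (G → ℝ)}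
    (hp : p ∈ SP Γ A B) : |ip p.1 p.2| < 1 := by
  obtain ⟨hA, hB, h0, h0', h5, h6⟩ := hp
  have hle : |ip p.1 p.2| ≤ 1 := by
    have := ip_cs p.1 p.2
    rwa [h5, h6, mul_one, Real.sqrt_one] at this
  refine lt_of_le_of_ne hle fun heq => ?_
  -- it is enough to show that p.1 is B-invariant
  have key : RInv B p.1 → False := by
    intro hB'
    have h1 : RInv Γ p.1 := (hA.sup hB').mono hgen
    have h2 : p.1 = 0 := by rw [← PP_of_rinv h1, h0]
    rw [h2] at h5
    simp [ip] at h5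
  rcases abs_eq (zero_le_one' ℝ) |>.mp heq with h | h
  · have h3 : ip (p.1 - p.2) (p.1 - p.2) = 0 := by
      rw [ip_sub_left, ip_sub_right, ip_sub_right, h5, h6, ip_comm p.2 p.1, h]
      norm_num
    have h4 : p.1 = p.2 := sub_eq_zero.mp (ip_self_eq_zero h3)
    exact key (h4 ▸ hB)
  · have h3 : ip (p.1 + p.2) (p.1 + p.2) = 0 := by
      rw [ip_add_left, ip_add_right, ip_add_right, h5, h6, ip_comm p.2 p.1, h]
      norm_num
    have h4 : p.1 = (-1 : ℝ) • p.2 := by
      have h5 := ip_self_eq_zero h3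
      rw [neg_one_smul]
      exact eq_neg_of_add_eq_zero_left h5
    exact key (h4 ▸ hB.smul _)

end strict

theorem gam_strict {G : Type*} [Group G] [Fintype G] (Γ A B : Subgroup G) (hgen : Γ ≤ A ⊔ B) :
    ∃ g : ℝ, 0 ≤ g ∧ g < 1 ∧ Gam Γ A B g := by
  rcases (SP Γ A B).eq_empty_or_nonempty with hemp | hne
  · refine ⟨0, le_rfl, one_pos, gam_of_SP Γ A B le_rfl fun p hp => ?_⟩
    rw [hemp] at hp
    exact hp.elim
  · obtain ⟨p, hp, hmax⟩ := (isCompact_SP Γ A B).exists_isMaxOn hne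
      (f := fun p => |ip p.1 p.2|)
      ((continuous_ip continuous_fst continuous_snd).abs.continuousOn)
    exact ⟨|ip p.1 p.2|, abs_nonneg _, ne_one_of_SP Γ A B hgen hp,
      gam_of_SP Γ A B (abs_nonneg _) fun q hq => hmax hq⟩

end Vale.P067.S
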