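import Vale.Agent.Lib.P067.S.Avg

/-!
# P067 part S, module Trickle: the trickle-down step

trickle_step.  s ≠ t not in J0, φ invariant under HH(insert s J0), ψ under HH(insert t J0), both with
PP (HH J0) = 0.  Choose u ∉ J0 with u ≠ s, t (three types), P = PP (HH (insert u J0)).
ip φ ψ = ip (Pφ) (Pψ) + ip (φ - Pφ) (ψ - Pψ) (`ip_split`).
* ip (Pφ) (Pφ) ≤ g² ip φ φ and ip (Pψ) (Pψ) ≤ g² ip ψ ψ by `Gam.norm_PP` (pairs (s,u), (t,u) at J0), and
  |ip (Pφ) (Pψ)| ≤ √(X Y), X = ip (Pφ) (Pφ), Y = ip (Pψ) (Pψ) (`ip_cs`).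
* φ - Pφ is invariant under HH (insert s (insert u J0)) (φ is, as insert s J0 is a subset; Pφ is invariant
  under HH (insert u J0)); PP (HH (insert u J0)) (φ - Pφ) = 0.  So by the hypothesis at insert u J0:
  |ip (φ - Pφ) (ψ - Pψ)| ≤ c √((F - X)(K - Y)), F = ip φ φ, K = ip ψ ψ (ip (φ-Pφ)(φ-Pφ) = F - X by `ip_split`).
Real inequality (`trickle_real`): 0 ≤ X ≤ g² F, 0 ≤ Y ≤ g² K, 0 ≤ c ≤ 1, g ≤ 1 imply
  √(XY) + c √((F-X)(K-Y)) ≤ (g² + c (1-g²)) √(F K):
  if F = 0 or K = 0 trivial; else with x = X/F, y = Y/K ≤ g²: √(xy) ≤ (x+y)/2, √((1-x)(1-y)) ≤ 1-(x+y)/2, and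
  (x+y)/2 + c (1-(x+y)/2) is increasing in (x+y)/2 ≤ g².

trickle_limit.  If all constants satisfy: GS H J0 g for some 0 ≤ g < 1, then for g* = inf of all such g in
[0,1): GS H J0 g* (the inequality is closed in the constant), so GS H J0 (g*² + c (1 - g*²)), so
g* ≤ g*² + c (1 - g*²), (1 - g*)(c (1+g*) - g*) ≥ 0, g* ≤ c (1 + g*), g* ≤ c/(1-c).  Then `Gam.mono`.
-/

namespace Vale.P067.S

open scoped Classical

theorem trickle_real (X Y F K c g : ℝ) (hX : 0 ≤ X) (hY : 0 ≤ Y) (hF : 0 ≤ F) (hK : 0 ≤ K)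
    (hc : 0 ≤ c) (hc1 : c ≤ 1) (hg : 0 ≤ g) (hg1 : g ≤ 1) (hXF : X ≤ g ^ 2 * F)
    (hYK : Y ≤ g ^ 2 * K) :
    Real.sqrt (X * Y) + c * Real.sqrt ((F - X) * (K - Y)) ≤
      (g ^ 2 + c * (1 - g ^ 2)) * Real.sqrt (F * K) := by
  rcases hF.eq_or_lt with hF0 | hF0
  · have hX0 : X = 0 := by
      rw [← hF0, mul_zero] at hXF
      exact le_antisymm hXF hX
    rw [← hF0, hX0]
    simp
  rcases hK.eq_or_lt with hK0 | hK0
  · have hY0 : Y = 0 := by
      rw [← hK0, mul_zero] at hYK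
      exact le_antisymm hYK hY
    rw [← hK0, hY0]
    simp
  have hg2 : g ^ 2 ≤ 1 := by nlinarith
  obtain ⟨x, hx⟩ : ∃ x, X = x * F := ⟨X / F, by field_simp⟩
  obtain ⟨y, hy⟩ : ∃ y, Y = y * K := ⟨Y / K, by field_simp⟩
  have hx0 : 0 ≤ x := by
    by_contra h
    push Not at h
    nlinarith
  have hy0 : 0 ≤ y := by
    by_contra h
    push Not at h
    nlinarith
  have hxg : x ≤ g ^ 2 := by
    rw [hx] at hXF
    exact le_of_mul_le_mul_right hXF hF0
  have hyg : y ≤ g ^ 2 := by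
    rw [hy] at hYK
    exact le_of_mul_le_mul_right hYK hK0
  have hR := Real.sqrt_nonneg (F * K)
  have e1 : Real.sqrt (X * Y) ≤ (x + y) / 2 * Real.sqrt (F * K) := by
    have h1 : X * Y = x * y * (F * K) := by rw [hx, hy]; ring
    rw [h1, Real.sqrt_mul (mul_nonneg hx0 hy0)]
    refine mul_le_mul_of_nonneg_right ?_ hR
    rw [Real.sqrt_le_left (by linarith)]
    nlinarith [sq_nonneg (x - y)]
  have e2 : Real.sqrt ((F - X) * (K - Y)) ≤ (1 - (x + y) / 2) * Real.sqrt (F * K) := by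
    have h1 : (F - X) * (K - Y) = (1 - x) * (1 - y) * (F * K) := by rw [hx, hy]; ring
    have hx1 : 0 ≤ 1 - x := by linarith
    have hy1 : 0 ≤ 1 - y := by linarith
    rw [h1, Real.sqrt_mul (mul_nonneg hx1 hy1)]
    refine mul_le_mul_of_nonneg_right ?_ hR
    rw [Real.sqrt_le_left (by linarith)]
    nlinarith [sq_nonneg (x - y)]
  have e3 : c * Real.sqrt ((F - X) * (K - Y)) ≤
      c * ((1 - (x + y) / 2) * Real.sqrt (F * K)) := mul_le_mul_of_nonneg_left e2 hc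
  have e4 : (x + y) / 2 + c * (1 - (x + y) / 2) ≤ g ^ 2 + c * (1 - g ^ 2) := by
    nlinarith
  have e5 := mul_le_mul_of_nonneg_right e4 hR
  have e6 : ((x + y) / 2 + c * (1 - (x + y) / 2)) * Real.sqrt (F * K) =
      (x + y) / 2 * Real.sqrt (F * K) + c * ((1 - (x + y) / 2) * Real.sqrt (F * K)) := by ring
  linarith

variable {S : Type*} [Fintype S] {G : Type*} [Group G] [Fintype G]

theorem trickle_step (H : S → Subgroup G) (J0 : Finset S) (h3 : 3 ≤ (J0ᶜ).card) (c g : ℝ)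
    (hc : 0 ≤ c) (hc1 : c ≤ 1) (hg : 0 ≤ g) (hg1 : g ≤ 1)
    (hu : ∀ u, u ∉ J0 → GS H (insert u J0) c) (hJ : GS H J0 g) :
    GS H J0 (g ^ 2 + c * (1 - g ^ 2)) := by
  intro s t hs ht hst φ ψ hφ hψ hφ0 hψ0
  -- a third type
  obtain ⟨u, huJ, hus, hut⟩ : ∃ u, u ∉ J0 ∧ u ≠ s ∧ u ≠ t := by
    have h1 : ((J0ᶜ) \ {s, t}).Nonempty := by
      rw [← Finset.card_pos]
      have h2 := Finset.le_card_sdiff ({s, t} : Finset S) (J0ᶜ)
      have h3' : ({s, t} : Finset S).card ≤ 2 := Finset.card_le_two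
      omega
    obtain ⟨u, hu⟩ := h1
    rw [Finset.mem_sdiff, Finset.mem_compl, Finset.mem_insert, Finset.mem_singleton] at hu
    exact ⟨u, hu.1, fun e => hu.2 (Or.inl e), fun e => hu.2 (Or.inr e)⟩
  have hX := (hJ s u hs huJ hus.symm).norm_PP (HH_insert_le H u J0) hg φ hφ hφ0
  have hY := (hJ t u ht huJ hut.symm).norm_PP (HH_insert_le H u J0) hg ψ hψ hψ0
  have hsu : s ∉ insert u J0 := by
    rw [Finset.mem_insert]
    rintro (e | e)
    · exact hus e.symm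
    · exact hs e
  have htu : t ∉ insert u J0 := by
    rw [Finset.mem_insert]
    rintro (e | e)
    · exact hut e.symm
    · exact ht e
  set P := PP (HH H (insert u J0)) with hP
  have hle : ∀ r : S, HH H (insert r (insert u J0)) ≤ HH H (insert r J0) := fun r =>
    HH_anti H (Finset.insert_subset_insert r (Finset.subset_insert u J0))
  have hz : ∀ χ : G → ℝ, P (χ - P χ) = 0 := by
    intro χ
    rw [hP, PP_sub, PP_of_rinv (PP_rinv _ _), sub_self]
  have hi : ∀ (r : S) (χ : G → ℝ), RInv (HH H (insert r J0)) χ →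
      RInv (HH H (insert r (insert u J0))) (χ - P χ) := fun r χ hχ =>
    (hχ.mono (hle r)).sub ((PP_rinv _ _).mono (HH_insert_le H r (insert u J0)))
  have h1 := hu u huJ s t hsu htu hst (φ - P φ) (ψ - P ψ) (hi s φ hφ) (hi t ψ hψ) (hz φ) (hz ψ)
  have h2 := ip_cs (P φ) (P ψ)
  have e1 := ip_split (HH H (insert u J0)) φ ψ
  have e2 := ip_split (HH H (insert u J0)) φ φ
  have e3 := ip_split (HH H (insert u J0)) ψ ψ
  rw [← hP] at e1 e2 e3
  have e4 : ip (φ - P φ) (φ - P φ) = ip φ φ - ip (P φ) (P φ) := by linarith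
  have e5 : ip (ψ - P ψ) (ψ - P ψ) = ip ψ ψ - ip (P ψ) (P ψ) := by linarith
  rw [e4, e5] at h1
  have h4 := trickle_real (ip (P φ) (P φ)) (ip (P ψ) (P ψ)) (ip φ φ) (ip ψ ψ) c g
    (ip_self_nonneg _) (ip_self_nonneg _) (ip_self_nonneg _) (ip_self_nonneg _) hc hc1 hg hg1
    hX hY
  refine le_trans ?_ h4
  rw [e1]
  exact (abs_add_le _ _).trans (add_le_add h2 h1)

/-- the inequality is closed in the constant -/
theorem GS_closed (H : S → Subgroup G) (J0 : Finset S) (g : ℝ)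
    (h : ∀ ε > 0, GS H J0 (g + ε)) : GS H J0 g := by
  intro s t hs ht hst φ ψ hφ hψ hφ0 hψ0
  set R := Real.sqrt (ip φ φ * ip ψ ψ) with hR
  have hR0 : 0 ≤ R := Real.sqrt_nonneg _
  refine le_of_forall_pos_le_add fun δ hδ => ?_
  have h1 := h (δ / (R + 1)) (by positivity) s t hs ht hst φ ψ hφ hψ hφ0 hψ0
  rw [← hR] at h1
  refine h1.trans ?_
  have h2 : δ / (R + 1) * R ≤ δ := by
    rw [div_mul_eq_mul_div, div_le_iff₀ (by positivity)]
    nlinarith
  linarith [add_mul g (δ / (R + 1)) R]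

theorem trickle_limit (H : S → Subgroup G) (J0 : Finset S) (h3 : 3 ≤ (J0ᶜ).card) (c : ℝ)
    (hc : 0 ≤ c) (hc1 : c < 1) (hu : ∀ u, u ∉ J0 → GS H (insert u J0) c)
    (hJ : ∃ g : ℝ, 0 ≤ g ∧ g < 1 ∧ GS H J0 g) : GS H J0 (c / (1 - c)) := by
  set A : Set ℝ := {g | 0 ≤ g ∧ g < 1 ∧ GS H J0 g} with hA
  have hne : A.Nonempty := hJ
  have hbd : BddBelow A := ⟨0, fun g hg => hg.1⟩
  have hmono : ∀ a b : ℝ, a ≤ b → GS H J0 a → GS H J0 b := fun a b hab h s t hs ht hst =>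
    (h s t hs ht hst).mono hab
  set g := sInf A with hgdef
  have hg0 : 0 ≤ g := le_csInf hne fun a ha => ha.1
  have hg1 : g < 1 := by
    obtain ⟨a, ha⟩ := hne
    exact (csInf_le hbd ha).trans_lt ha.2.1
  have hg : GS H J0 g := by
    refine GS_closed H J0 g fun ε hε => ?_
    obtain ⟨a, ha, hag⟩ := exists_lt_of_csInf_lt hne (show sInf A < g + ε by linarith)
    exact hmono a _ hag.le ha.2.2
  have hstep := trickle_step H J0 h3 c g hc hc1.le hg0 hg1.le hu hg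
  have hmem : g ^ 2 + c * (1 - g ^ 2) ∈ A := by
    refine ⟨?_, ?_, hstep⟩
    · have : 0 ≤ 1 - g ^ 2 := by nlinarith
      positivity
    · have h1 : 0 < 1 - g ^ 2 := by nlinarith
      nlinarith
  have h4 := csInf_le hbd hmem
  rw [← hgdef] at h4
  refine hmono g _ ?_ hg
  rw [le_div_iff₀ (by linarith)]
  have h5 : 0 ≤ (1 - g) * (c * (1 + g) - g) := by nlinarith
  have h6 : 0 ≤ c * (1 + g) - g := by
    by_contra h7
    push Not at h7
    have : (1 - g) * (c * (1 + g) - g) < 0 := mul_neg_of_pos_of_neg (by linarith) h7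
    linarith
  linarith

end Vale.P067.S
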