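import Vale.Agent.Lib.P067.S.Local
import Vale.Agent.Lib.P067.S.Trickle
import Vale.Agent.Lib.P067.S.Strict

/-!
# P067 part S, module Iter: all ranks

Root subgroups R r with HH H J = ⨆_{r ∉ J} R r for all J (also J = ∅), and rank two constant c.
GS_iter: for every J0 with N = |J0ᶜ| ≥ 2: GS H J0 (c / (1 - (N-2) c)).  Induction on N.
N = 2: J0ᶜ = {s, t}: HH H J0 = R s ⊔ R t, HH H (insert s J0) = R t, HH H (insert t J0) = R s.
N ≥ 3: `trickle_limit` with the constant c' = c / (1 - (N-3) c) < 1 of the sets insert u J0; c'/(1-c') =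
c/(1 - (N-2)c).  Strictness: for each pair s ≠ t: HH(insert s J0) ⊔ HH(insert t J0) = HH J0 (each R r, r ∉ J0,
is in one of the two as r ≠ s or r ≠ t), `gam_strict`, and take the maximum of the finitely many constants.
(For N ≤ 1 GS is vacuous.)  Finally c/(1-(N-2)c) ≤ 2c because (N-2) c ≤ 1/2, and `spec_of_GS`.
-/

namespace Vale.P067.S

open scoped Classical

variable {S : Type*} [Fintype S] {G : Type*} [Group G]

omit [Fintype S] in
private theorem iter_GS_mono [Fintype G] {H : S → Subgroup G} {J0 : Finset S} {c c' : ℝ}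
    (h : GS H J0 c) (hc : c ≤ c') : GS H J0 c' :=
  fun s t hs ht hst => (h s t hs ht hst).mono hc

theorem GS_strict [Fintype G] (H R : S → Subgroup G)
    (hHH : ∀ J : Finset S, HH H J = ⨆ r ∈ Jᶜ, R r) (J0 : Finset S) :
    ∃ g : ℝ, 0 ≤ g ∧ g < 1 ∧ GS H J0 g := by
  have key : ∀ p : S × S, ∃ g : {g : ℝ // 0 ≤ g ∧ g < 1},
      p.1 ∉ J0 → p.2 ∉ J0 → p.1 ≠ p.2 →
        Gam (HH H J0) (HH H (insert p.1 J0)) (HH H (insert p.2 J0)) g.1 := by
    rintro ⟨s, t⟩
    by_cases hst : s = t
    · exact ⟨⟨0, le_rfl, one_pos⟩, fun _ _ h => absurd hst h⟩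
    · have hgen : HH H J0 ≤ HH H (insert s J0) ⊔ HH H (insert t J0) := by
        rw [hHH J0, hHH (insert s J0), hHH (insert t J0)]
        refine iSup₂_le fun r hr => ?_
        rw [Finset.mem_compl] at hr
        by_cases hrs : r = s
        · refine le_trans ?_ le_sup_right
          refine le_iSup₂ (f := fun r (_ : r ∈ (insert t J0)ᶜ) => R r) r ?_
          rw [Finset.mem_compl, Finset.mem_insert, not_or]
          exact ⟨fun h => hst (hrs.symm.trans h), hr⟩
        · refine le_trans ?_ le_sup_left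
          refine le_iSup₂ (f := fun r (_ : r ∈ (insert s J0)ᶜ) => R r) r ?_
          rw [Finset.mem_compl, Finset.mem_insert, not_or]
          exact ⟨hrs, hr⟩
      obtain ⟨g, h0, h1, hg⟩ := gam_strict (HH H J0) (HH H (insert s J0)) (HH H (insert t J0)) hgen
      exact ⟨⟨g, h0, h1⟩, fun _ _ _ => hg⟩
  choose g hg using key
  have : Nonempty {g : ℝ // 0 ≤ g ∧ g < 1} := ⟨⟨0, le_rfl, one_pos⟩⟩
  obtain ⟨M, hM⟩ := Finset.exists_le (Finset.univ.image g)
  refine ⟨M.1, M.2.1, M.2.2, fun s t hs ht hst => ?_⟩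
  exact (hg (s, t) hs ht hst).mono
    (hM (g (s, t)) (Finset.mem_image_of_mem g (Finset.mem_univ _)))

theorem GS_two [Fintype G] (H R : S → Subgroup G)
    (hHH : ∀ J : Finset S, HH H J = ⨆ r ∈ Jᶜ, R r) (c : ℝ)
    (h2 : ∀ s t : S, s ≠ t → Gam (R s ⊔ R t) (R s) (R t) c)
    (J0 : Finset S) (h : (J0ᶜ).card = 2) : GS H J0 c := by
  intro s t hs ht hst
  have hJ : J0ᶜ = {s, t} := by
    symm
    apply Finset.eq_of_subset_of_card_le
    · intro x hx
      rw [Finset.mem_insert, Finset.mem_singleton] at hx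
      rw [Finset.mem_compl]
      rcases hx with rfl | rfl
      · exact hs
      · exact ht
    · rw [h, Finset.card_pair hst]
  have e0 : HH H J0 = R t ⊔ R s := by
    rw [hHH, hJ]
    apply le_antisymm
    · refine iSup₂_le fun r hr => ?_
      rw [Finset.mem_insert, Finset.mem_singleton] at hr
      rcases hr with rfl | rfl
      · exact le_sup_right
      · exact le_sup_left
    · refine sup_le ?_ ?_
      · exact le_iSup₂ (f := fun r (_ : r ∈ ({s, t} : Finset S)) => R r) t (by simp)
      · exact le_iSup₂ (f := fun r (_ : r ∈ ({s, t} : Finset S)) => R r) s (by simp)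
  have es : HH H (insert s J0) = R t := by
    rw [hHH, Finset.compl_insert, hJ]
    have : ({s, t} : Finset S).erase s = {t} := by
      ext x
      simp only [Finset.mem_erase, Finset.mem_insert, Finset.mem_singleton]
      constructor
      · rintro ⟨h1, h2 | h2⟩
        · exact absurd h2 h1
        · exact h2
      · rintro rfl
        exact ⟨Ne.symm hst, Or.inr rfl⟩
    rw [this]
    simp
  have et : HH H (insert t J0) = R s := by
    rw [hHH, Finset.compl_insert, hJ]
    have : ({s, t} : Finset S).erase t = {s} := by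
      ext x
      simp only [Finset.mem_erase, Finset.mem_insert, Finset.mem_singleton]
      constructor
      · rintro ⟨h1, h2 | h2⟩
        · exact h2
        · exact absurd h2 h1
      · rintro rfl
        exact ⟨hst, Or.inl rfl⟩
    rw [this]
    simp
  rw [e0, es, et]
  exact h2 t s (Ne.symm hst)

theorem GS_iter [Fintype G] (H R : S → Subgroup G)
    (hHH : ∀ J : Finset S, HH H J = ⨆ r ∈ Jᶜ, R r) (c : ℝ) (hc0 : 0 ≤ c)
    (hc : 2 * c * Fintype.card S ≤ 1)
    (h2 : ∀ s t : S, s ≠ t → Gam (R s ⊔ R t) (R s) (R t) c)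
    (N : ℕ) (J0 : Finset S) (h : (J0ᶜ).card = N + 2) : GS H J0 (c / (1 - N * c)) := by
  induction N generalizing J0 with
  | zero =>
    have e : c / (1 - ((0 : ℕ) : ℝ) * c) = c := by simp
    rw [e]
    exact GS_two H R hHH c h2 J0 h
  | succ N ih =>
    have hcard : N + 3 ≤ Fintype.card S := by
      have := Finset.card_le_univ (J0ᶜ)
      omega
    have hcard' : ((N : ℝ) + 3) ≤ Fintype.card S := by exact_mod_cast hcard
    have h3 : 2 * c * ((N : ℝ) + 3) ≤ 1 :=
      (mul_le_mul_of_nonneg_left hcard' (by positivity)).trans hc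
    have hNc : 0 ≤ (N : ℝ) * c := by positivity
    have hpos : 0 < 1 - (N : ℝ) * c := by nlinarith
    have hpos' : 0 < 1 - ((N : ℝ) + 1) * c := by nlinarith
    have hu : ∀ u, u ∉ J0 → GS H (insert u J0) (c / (1 - N * c)) := by
      intro u hu
      apply ih
      rw [Finset.compl_insert, Finset.card_erase_of_mem (by rwa [Finset.mem_compl]), h]
      rfl
    have hlt : c / (1 - N * c) < 1 := by
      rw [div_lt_one hpos]
      linarith
    have := trickle_limit H J0 (by omega) (c / (1 - N * c)) (by positivity) hlt hu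
      (GS_strict H R hHH J0)
    have e : c / (1 - N * c) / (1 - c / (1 - N * c)) = c / (1 - ((N + 1 : ℕ) : ℝ) * c) := by
      have h5 : 1 - c / (1 - N * c) = (1 - ((N : ℝ) + 1) * c) / (1 - N * c) := by
        rw [eq_div_iff hpos.ne', sub_mul, div_mul_cancel₀ _ hpos.ne']
        ring
      rw [h5, div_div_div_cancel_right₀ hpos.ne']
      push_cast
      rfl
    rwa [e] at this

theorem spec_abs [Finite G] (H R : S → Subgroup G)
    (hHH : ∀ J : Finset S, HH H J = ⨆ r ∈ Jᶜ, R r) (c : ℝ) (hc0 : 0 ≤ c)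
    (hc : 2 * c * Fintype.card S ≤ 1)
    (h2 : ∀ (inst : Fintype G) (s t : S), s ≠ t → Gam (R s ⊔ R t) (R s) (R t) c) :
    Spec H (2 * c) := by
  have : Fintype G := Fintype.ofFinite G
  apply spec_of_GS H (2 * c) (by linarith)
  intro J0
  by_cases hcard : 2 ≤ (J0ᶜ).card
  · obtain ⟨N, hN⟩ : ∃ N, (J0ᶜ).card = N + 2 := ⟨(J0ᶜ).card - 2, by omega⟩
    have h1 := GS_iter H R hHH c hc0 hc (h2 inferInstance) N J0 hN
    refine iter_GS_mono h1 ?_
    have hNS : N + 2 ≤ Fintype.card S := by
      have := Finset.card_le_univ (J0ᶜ)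
      omega
    have hNS' : ((N : ℝ) + 2) ≤ Fintype.card S := by exact_mod_cast hNS
    have h3 : 2 * c * ((N : ℝ) + 2) ≤ 1 :=
      (mul_le_mul_of_nonneg_left hNS' (by positivity)).trans hc
    have hpos : 1 / 2 ≤ 1 - (N : ℝ) * c := by nlinarith
    rw [div_le_iff₀ (by linarith)]
    nlinarith
  · intro s t hs ht hst
    exfalso
    apply hcard
    have : ({s, t} : Finset S) ⊆ J0ᶜ := by
      intro x hx
      rw [Finset.mem_insert, Finset.mem_singleton] at hx
      rw [Finset.mem_compl]
      rcases hx with rfl | rfl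
      · exact hs
      · exact ht
    have h3 := Finset.card_le_card this
    rwa [Finset.card_pair hst] at h3

end Vale.P067.S
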