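import Vale.Agent.Lib.P067.S.Avg

/-!
# P067 part S, module Local: from `Gam` to the inequality in `Spec` (localisation to one coset)

gam_local.  Fix x.  φ'(y) := if x⁻¹ * y ∈ Γ then φ y - PP Γ φ y else 0, the same for ψ.  These are A- (B-)
invariant (A, B ≤ Γ; PP Γ φ is Γ-invariant), PP Γ φ' = 0 (at y in x Γ: PP Γ (φ - PP Γ φ) y = 0; else all
values are 0).  On x Γ the function PP Γ φ is the constant a = PP Γ φ x, b = PP Γ ψ x.  Reindex the sum over
G by y = x h, h ∈ Γ:  ip φ' ψ' = ∑_{h∈Γ} (φ(xh) - a)(ψ(xh) - b) = |Γ| (PP Γ (φψ) x - a b), and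
ip φ' φ' = |Γ| (PP Γ (φ²) x - a²) ≤ |Γ| PP Γ (φ²) x.
spec_of_GS is then immediate (`av_eq_PP`).
-/

namespace Vale.P067.S

open scoped Classical

section loc
variable {G : Type*} [Group G] [Fintype G]

private theorem loc_sum (Γ : Subgroup G) (u : G → ℝ) (x : G) :
    ∑ y, (if x⁻¹ * y ∈ Γ then u y else 0) = (Fintype.card Γ : ℝ) * PP Γ u x := by
  have hN : (Fintype.card Γ : ℝ) ≠ 0 := by
    have : 0 < Fintype.card Γ := Fintype.card_pos
    exact_mod_cast this.ne'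
  rw [PP_eq_sum, mul_div_cancel₀ _ hN]
  rw [← Fintype.sum_equiv (Equiv.mulLeft x) (fun y => if y ∈ Γ then u (x * y) else 0)
    (fun y => if x⁻¹ * y ∈ Γ then u y else 0) (by intro y; simp)]
  rw [← Finset.sum_filter]
  symm
  refine Finset.sum_bij (fun (h : Γ) _ => (h : G)) ?_ ?_ ?_ ?_
  · intro h _
    simp
  · intro h _ h' _ hh
    exact Subtype.ext hh
  · intro y hy
    exact ⟨⟨y, (Finset.mem_filter.1 hy).2⟩, Finset.mem_univ _, rfl⟩
  · intro h _
    rfl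

private theorem loc_quad (Γ : Subgroup G) (φ ψ : G → ℝ) (a b : ℝ) (x : G) :
    PP Γ (fun y => (φ y - a) * (ψ y - b)) x =
      PP Γ (fun y => φ y * ψ y) x - a * PP Γ ψ x - b * PP Γ φ x + a * b := by
  have hN : (Fintype.card Γ : ℝ) ≠ 0 := by
    have : 0 < Fintype.card Γ := Fintype.card_pos
    exact_mod_cast this.ne'
  have h1 : ∑ h : Γ, (φ (x * h) - a) * (ψ (x * h) - b) =
      ∑ h : Γ, φ (x * h) * ψ (x * h) - a * ∑ h : Γ, ψ (x * h) - b * ∑ h : Γ, φ (x * h) +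
        (Fintype.card Γ : ℝ) * (a * b) := by
    have h2 : (Fintype.card Γ : ℝ) * (a * b) = ∑ _h : Γ, a * b := by
      rw [Finset.sum_const, Finset.card_univ, nsmul_eq_mul]
    rw [h2, Finset.mul_sum, Finset.mul_sum, ← Finset.sum_sub_distrib, ← Finset.sum_sub_distrib,
      ← Finset.sum_add_distrib]
    refine Finset.sum_congr rfl fun h _ => ?_
    ring
  rw [PP_eq_sum, PP_eq_sum, PP_eq_sum, PP_eq_sum, h1]
  field_simp

private noncomputable def cut (Γ : Subgroup G) (x : G) (φ : G → ℝ) (a : ℝ) : G → ℝ :=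
  fun y => if x⁻¹ * y ∈ Γ then φ y - a else 0

private theorem loc_mem (Γ : Subgroup G) (x y h : G) (hh : h ∈ Γ) :
    x⁻¹ * (y * h) ∈ Γ ↔ x⁻¹ * y ∈ Γ := by
  rw [← mul_assoc]
  exact Γ.mul_mem_cancel_right hh

private theorem cut_rinv (Γ A : Subgroup G) (hA : A ≤ Γ) (x : G) (φ : G → ℝ) (a : ℝ)
    (hφ : RInv A φ) : RInv A (cut Γ x φ a) := by
  intro y h hh
  simp only [cut, loc_mem Γ x y h (hA hh), hφ y h hh]

private theorem cut_PP (Γ : Subgroup G) (x : G) (φ : G → ℝ) :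
    PP Γ (cut Γ x φ (PP Γ φ x)) = 0 := by
  have hN : (Fintype.card Γ : ℝ) ≠ 0 := by
    have : 0 < Fintype.card Γ := Fintype.card_pos
    exact_mod_cast this.ne'
  funext y
  rw [PP_eq_sum, Pi.zero_apply]
  by_cases hy : x⁻¹ * y ∈ Γ
  · have h1 : ∑ h : Γ, cut Γ x φ (PP Γ φ x) (y * h) =
        ∑ h : Γ, φ (y * h) - (Fintype.card Γ : ℝ) * PP Γ φ x := by
      have h2 : (Fintype.card Γ : ℝ) * PP Γ φ x = ∑ _h : Γ, PP Γ φ x := by
        rw [Finset.sum_const, Finset.card_univ, nsmul_eq_mul]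
      rw [h2, ← Finset.sum_sub_distrib]
      refine Finset.sum_congr rfl fun h _ => ?_
      simp only [cut]
      rw [if_pos ((loc_mem Γ x y h h.2).2 hy)]
    have h3 : PP Γ φ x = PP Γ φ y := by
      have h4 := PP_rinv Γ φ x (x⁻¹ * y) hy
      rw [mul_inv_cancel_left] at h4
      exact h4.symm
    rw [h1, h3, PP_eq_sum, mul_div_cancel₀ _ hN, sub_self, zero_div]
  · have h1 : ∑ h : Γ, cut Γ x φ (PP Γ φ x) (y * h) = 0 := by
      refine Finset.sum_eq_zero fun h _ => ?_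
      simp only [cut]
      rw [if_neg (fun hc => hy ((loc_mem Γ x y h h.2).1 hc))]
    rw [h1, zero_div]

private theorem cut_ip (Γ : Subgroup G) (x : G) (φ ψ : G → ℝ) :
    ip (cut Γ x φ (PP Γ φ x)) (cut Γ x ψ (PP Γ ψ x)) =
      (Fintype.card Γ : ℝ) * (PP Γ (fun y => φ y * ψ y) x - PP Γ φ x * PP Γ ψ x) := by
  have h1 : ip (cut Γ x φ (PP Γ φ x)) (cut Γ x ψ (PP Γ ψ x)) =
      ∑ y, (if x⁻¹ * y ∈ Γ then (fun y => (φ y - PP Γ φ x) * (ψ y - PP Γ ψ x)) y else 0) := by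
    unfold ip
    refine Finset.sum_congr rfl fun y _ => ?_
    simp only [cut]
    split_ifs <;> simp
  rw [h1, loc_sum, loc_quad]
  ring

theorem gam_local (Γ A B : Subgroup G) (hA : A ≤ Γ) (hB : B ≤ Γ) (c : ℝ) (hc : 0 ≤ c)
    (h : Gam Γ A B c) (φ ψ : G → ℝ) (hφ : RInv A φ) (hψ : RInv B ψ) (x : G) :
    |PP Γ (fun y => φ y * ψ y) x - PP Γ φ x * PP Γ ψ x| ≤
      c * Real.sqrt (PP Γ (fun y => φ y ^ 2) x * PP Γ (fun y => ψ y ^ 2) x) := by
  have hN : (0 : ℝ) < Fintype.card Γ := by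
    have : 0 < Fintype.card Γ := Fintype.card_pos
    exact_mod_cast this
  have hm := h (cut Γ x φ (PP Γ φ x)) (cut Γ x ψ (PP Γ ψ x)) (cut_rinv Γ A hA x φ _ hφ)
    (cut_rinv Γ B hB x ψ _ hψ) (cut_PP Γ x φ) (cut_PP Γ x ψ)
  have e1 := ip_self_nonneg (cut Γ x φ (PP Γ φ x))
  have e2 := ip_self_nonneg (cut Γ x ψ (PP Γ ψ x))
  rw [cut_ip, cut_ip, cut_ip] at hm
  rw [cut_ip] at e1 e2
  have q1 : (fun y => φ y * φ y) = (fun y => φ y ^ 2) := by funext y; ring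
  have q2 : (fun y => ψ y * ψ y) = (fun y => ψ y ^ 2) := by funext y; ring
  rw [q1] at hm e1
  rw [q2] at hm e2
  set N : ℝ := (Fintype.card Γ : ℝ) with hNdef
  set P : ℝ := PP Γ (fun y => φ y ^ 2) x with hP
  set Q : ℝ := PP Γ (fun y => ψ y ^ 2) x with hQ
  set a : ℝ := PP Γ φ x with ha
  set b : ℝ := PP Γ ψ x with hb
  have f1 : N * (P - a * a) ≤ N * P := by
    apply mul_le_mul_of_nonneg_left _ hN.le
    nlinarith [mul_self_nonneg a]
  have f2 : N * (Q - b * b) ≤ N * Q := by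
    apply mul_le_mul_of_nonneg_left _ hN.le
    nlinarith [mul_self_nonneg b]
  have f3 : N * (P - a * a) * (N * (Q - b * b)) ≤ N ^ 2 * (P * Q) := by
    calc N * (P - a * a) * (N * (Q - b * b)) ≤ N * P * (N * Q) :=
          mul_le_mul f1 f2 e2 (e1.trans f1)
      _ = N ^ 2 * (P * Q) := by ring
  have f4 : Real.sqrt (N * (P - a * a) * (N * (Q - b * b))) ≤ N * Real.sqrt (P * Q) := by
    calc Real.sqrt (N * (P - a * a) * (N * (Q - b * b))) ≤ Real.sqrt (N ^ 2 * (P * Q)) :=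
          Real.sqrt_le_sqrt f3
      _ = N * Real.sqrt (P * Q) := by
          rw [Real.sqrt_mul (sq_nonneg N), Real.sqrt_sq hN.le]
  rw [abs_mul, abs_of_pos hN] at hm
  have f5 : N * |PP Γ (fun y => φ y * ψ y) x - a * b| ≤ N * (c * Real.sqrt (P * Q)) := by
    calc N * |PP Γ (fun y => φ y * ψ y) x - a * b|
        ≤ c * Real.sqrt (N * (P - a * a) * (N * (Q - b * b))) := hm
      _ ≤ c * (N * Real.sqrt (P * Q)) := mul_le_mul_of_nonneg_left f4 hc
      _ = N * (c * Real.sqrt (P * Q)) := by ring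
  exact le_of_mul_le_mul_left f5 hN

end loc

theorem spec_of_GS {S : Type*} [Fintype S] {G : Type*} [Group G] [Fintype G]
    (H : S → Subgroup G) (c : ℝ) (hc : 0 ≤ c) (h : ∀ J0 : Finset S, GS H J0 c) : Spec H c := by
  intro J0 s t hs ht hst φ ψ hφ hψ x
  exact gam_local (HH H J0) (HH H (insert s J0)) (HH H (insert t J0)) (HH_insert_le H s J0)
    (HH_insert_le H t J0) c hc (h J0 s t hs ht hst) φ ψ hφ hψ x

end Vale.P067.S
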