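import Vale.Agent.Lib.P067.Interface
import Vale.Agent.Lib.P067.Quot
import Vale.Agent.Lib.P067.E.Gfin
import Vale.Agent.Lib.P067.S.Iter
import Vale.Agent.Lib.P067.S.Heis
import Vale.Agent.Lib.P067.S.GenH

/-!
# P067 part S, module Main

HH_Hm_eq.  J ≠ ∅: `HH_Hm`, `HH_Hs_eq`, `Subgroup.map_iSup`, `MonoidHom.range_comp`/`MonoidHom.map_range`.
J = ∅: HH _ ∅ = ⊤ = π(⊤) = π(⨆ s, Hs s) = ⨆ s, π(HH (Hs) {s}) = ⨆ s, ⨆ r ≠ s, Rm r = ⨆ r, Rm r (n ≥ 2).
Rm_gam.  In Fin n, s ≠ t.  If n ∣ s + 1 - t: t ≡ s + 1: `gam_heis` with xA = π ∘ rt (s+1) 1 (`rt_congr` t),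
xB = π ∘ rt s 1, xZ = π ∘ rt s 2, `rt_rel` (d = 1), `rt_comm`; then `Gam.symm` and sup_comm.  If n ∣ t + 1 - s:
the same with s, t exchanged.  Otherwise the ranges commute (`rt_comm`): `gam_comm`, `Gam.mono`.
partS.  q0 with 1/√q ≤ min (1/(2n)) (lam/2) for q ≥ q0; `spec_abs` (the instance Finite (Gm k n m) is
`finite_Gm`), `Spec.mono`.
-/

namespace Vale.P067.S

open scoped Classical

section main
variable (k : Type*) [Field k] (n : ℕ)

/-- root subgroups of G_m -/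
noncomputable def Rm (m : ℕ) (h1 : 0 < 1 ∧ 1 < n) (r : Fin n) : Subgroup (Gm k n m) :=
  ((QuotientGroup.mk' (Nc k n m)).comp (rt k n ((r : ℕ) : ℤ) 1 h1)).range

theorem HH_Hm_eq (m : ℕ) (hm : 2 ≤ m) (h1 : 0 < 1 ∧ 1 < n) (hgen : ⨆ s, Hs k n s = ⊤)
    (J : Finset (Fin n)) : HH (Hm k n m) J = ⨆ r ∈ Jᶜ, Rm k n m h1 r := by
  have key : ∀ J : Finset (Fin n), J.Nonempty →
      (HH (Hs k n) J).map (QuotientGroup.mk' (Nc k n m)) = ⨆ r ∈ Jᶜ, Rm k n m h1 r := by
    intro J hJ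
    rw [HH_Hs_eq k n h1 J hJ]
    simp only [Subgroup.map_iSup, MonoidHom.map_range]
    rfl
  rcases J.eq_empty_or_nonempty with rfl | hJ
  · have e1 : HH (Hm k n m) ∅ = ⊤ := by
      unfold HH
      simp
    rw [e1, eq_comm, eq_top_iff]
    have e2 : (⊤ : Subgroup (Gm k n m)) =
        (⊤ : Subgroup (U k n)).map (QuotientGroup.mk' (Nc k n m)) :=
      (Subgroup.map_top_of_surjective _ (QuotientGroup.mk'_surjective _)).symm
    rw [e2, ← hgen, Subgroup.map_iSup]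
    refine iSup_le fun s => ?_
    have e3 : Hs k n s = HH (Hs k n) {s} := by
      unfold HH
      simp
    rw [e3, key {s} (Finset.singleton_nonempty s)]
    refine iSup₂_le fun r _ => ?_
    refine le_iSup₂_of_le r ?_ le_rfl
    simp
  · rw [HH_Hm k n m hm J hJ]
    exact key J hJ

theorem Rm_gam [Fintype k] (m : ℕ) [Fintype (Gm k n m)] (h1 : 0 < 1 ∧ 1 < n) (hn : 3 ≤ n)
    (s t : Fin n) (hst : s ≠ t) :
    Gam (Rm k n m h1 s ⊔ Rm k n m h1 t) (Rm k n m h1 s) (Rm k n m h1 t)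
      (1 / Real.sqrt (Fintype.card k)) := by
  set π := QuotientGroup.mk' (Nc k n m) with hπ
  have h2 : 0 < 2 ∧ 2 < n := ⟨by norm_num, by omega⟩
  have hn1 : ¬ (n : ℤ) ∣ 1 := by
    intro h
    have := Int.le_of_dvd (by norm_num) h
    omega
  have hn2 : ¬ (n : ℤ) ∣ 2 := by
    intro h
    have := Int.le_of_dvd (by norm_num) h
    omega
  have main : ∀ a b : Fin n, (n : ℤ) ∣ ((a : ℕ) : ℤ) + 1 - ((b : ℕ) : ℤ) →
      Gam (Rm k n m h1 b ⊔ Rm k n m h1 a) (Rm k n m h1 b) (Rm k n m h1 a)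
        (1 / Real.sqrt (Fintype.card k)) := by
    intro a b hab
    have e1 : Rm k n m h1 b =
        (π.comp (rt k n (((a : ℕ) : ℤ) + ((1 : ℕ) : ℤ)) 1 h1)).range := by
      unfold Rm
      rw [rt_congr k n ((b : ℕ) : ℤ) (((a : ℕ) : ℤ) + ((1 : ℕ) : ℤ)) 1 h1]
      have h3 := (dvd_neg (a := (n : ℤ))).2 hab
      have h4 : -(((a : ℕ) : ℤ) + 1 - ((b : ℕ) : ℤ)) =
          ((b : ℕ) : ℤ) - (((a : ℕ) : ℤ) + ((1 : ℕ) : ℤ)) := by
        push_cast
        ring
      rwa [h4] at h3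
    rw [e1]
    unfold Rm
    refine gam_heis (π.comp (rt k n (((a : ℕ) : ℤ) + ((1 : ℕ) : ℤ)) 1 h1))
      (π.comp (rt k n ((a : ℕ) : ℤ) 1 h1)) (π.comp (rt k n ((a : ℕ) : ℤ) 2 h2)) ?_ ?_ ?_
    · intro x c
      simp only [MonoidHom.comp_apply, ← map_mul]
      rw [rt_comm k n _ _ 2 1 h2 h1]
      · intro h
        apply hn1
        have e : ((a : ℕ) : ℤ) + ((2 : ℕ) : ℤ) - (((a : ℕ) : ℤ) + ((1 : ℕ) : ℤ)) = 1 := by
          push_cast
          ring
        rwa [e] at h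
      · intro h
        apply hn2
        have e : ((a : ℕ) : ℤ) + ((1 : ℕ) : ℤ) + ((1 : ℕ) : ℤ) - ((a : ℕ) : ℤ) = 2 := by
          push_cast
          ring
        rwa [e] at h
    · intro x c
      simp only [MonoidHom.comp_apply, ← map_mul]
      rw [rt_comm k n _ _ 2 1 h2 h1]
      · intro h
        apply hn2
        have e : ((a : ℕ) : ℤ) + ((2 : ℕ) : ℤ) - ((a : ℕ) : ℤ) = 2 := by
          push_cast
          ring
        rwa [e] at h
      · intro h
        apply hn1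
        have e : ((a : ℕ) : ℤ) + ((1 : ℕ) : ℤ) - ((a : ℕ) : ℤ) = 1 := by
          push_cast
          ring
        rwa [e] at h
    · intro x y
      simp only [MonoidHom.comp_apply, ← map_mul]
      rw [rt_rel k n ((a : ℕ) : ℤ) 1 h1 h2 h1 x y]
  by_cases c1 : (n : ℤ) ∣ ((t : ℕ) : ℤ) + 1 - ((s : ℕ) : ℤ)
  · exact main t s c1
  · by_cases c2 : (n : ℤ) ∣ ((s : ℕ) : ℤ) + 1 - ((t : ℕ) : ℤ)
    · have h3 := main s t c2
      rw [sup_comm]
      exact h3.symm
    · refine (gam_comm _ _ ?_).mono (by positivity)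
      rintro _ ⟨a, rfl⟩ _ ⟨b, rfl⟩
      simp only [MonoidHom.comp_apply, ← map_mul]
      rw [rt_comm k n _ _ 1 1 h1 h1]
      · intro h
        apply c2
        simpa using h
      · intro h
        apply c1
        simpa using h

end main

theorem Spec.mono {S : Type*} [Fintype S] {G : Type*} [Group G] {H : S → Subgroup G} {c c' : ℝ}
    (h : Spec H c) (hc : c ≤ c') : Spec H c' := by
  intro J0 s t hs ht hst φ ψ hφ hψ x
  exact (h J0 s t hs ht hst φ ψ hφ hψ x).trans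
    (mul_le_mul_of_nonneg_right hc (Real.sqrt_nonneg _))

theorem partS : PartS := by
  intro n hn lam hlam
  have hn0 : (0 : ℝ) < n := by
    have : 0 < n := by omega
    exact_mod_cast this
  set δ : ℝ := min (1 / (2 * n)) (lam / 2) with hδ
  have hδ0 : 0 < δ := lt_min (by positivity) (by positivity)
  refine ⟨⌈1 / δ ^ 2⌉₊, ?_⟩
  intro k _ _ hq hgen m hm
  have h1 : 0 < 1 ∧ 1 < n := ⟨one_pos, by omega⟩
  have hq1 : 1 / δ ^ 2 ≤ (Fintype.card k : ℝ) :=
    (Nat.le_ceil _).trans (by exact_mod_cast hq)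
  have hq2 : 1 / δ ≤ Real.sqrt (Fintype.card k) := by
    apply Real.le_sqrt_of_sq_le
    rw [div_pow, one_pow]
    exact hq1
  have hc : 1 / Real.sqrt (Fintype.card k) ≤ δ := by
    have h2 : 0 < 1 / δ := by positivity
    have h3 := one_div_le_one_div_of_le h2 hq2
    rwa [one_div_one_div] at h3
  have : Finite (Gm k n m) := finite_Gm k n (by omega) m
  have hS : Spec (Hm k n m) (2 * (1 / Real.sqrt (Fintype.card k))) := by
    refine spec_abs (Hm k n m) (fun r => Rm k n m h1 r) ?_ _ (by positivity) ?_ ?_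
    · intro J
      rw [HH_Hm_eq k n m hm h1 hgen J]
      simp only [Finset.mem_compl]
    · rw [Fintype.card_fin]
      have h2 : 1 / Real.sqrt (Fintype.card k) ≤ 1 / (2 * n) := hc.trans (min_le_left _ _)
      have h3 := mul_le_mul_of_nonneg_left h2 (show (0 : ℝ) ≤ 2 * n by positivity)
      have h4 : (2 * (n : ℝ)) * (1 / (2 * n)) = 1 := by field_simp
      rw [h4] at h3
      linarith
    · intro inst s t hst
      exact Rm_gam k n m h1 hn s t hst
  refine Spec.mono hS ?_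
  have h2 : 1 / Real.sqrt (Fintype.card k) ≤ lam / 2 := hc.trans (min_le_right _ _)
  linarith

end Vale.P067.S
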