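import Vale.Agent.Lib.P067.UFacts

/-!
# P067 part S, module Root: the root elements of U

`xl k n l d c`: the linear map e_a ↦ e_a + c e_{a+d} for a ≡ l mod n, e_a ↦ e_a for the other a (0 < d < n).
Since a + d ≢ a, xl c ∘ xl c' = xl (c + c'), so xl c is invertible with inverse xl (-c); it commutes with the
shift by n; e_a ↦ e_a + (multiple of e_{a+d}), d > 0.  So it is in U.  `rt k n l d hd : Multiplicative k →* U k n`.
All identities are checked on the basis vectors (`Finsupp.lhom_ext'`).  UFacts.lean (proved) has `sh_apply`,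
`U_sub_mem`, `U_map_M`, `U_St_mod`, `mem_U_of` (xe_mem: by `mem_U_of` only the first two conditions are needed).
-/

namespace Vale.P067.S

open scoped Classical

variable (k : Type*) [Field k]

/-- e_a ↦ e_a + c e_{a+d} for a ≡ l mod n, the other basis vectors are fixed -/
noncomputable def xl (n : ℕ) (l : ℤ) (d : ℕ) (c : k) : E k →ₗ[k] E k :=
  Finsupp.linearCombination k
    (fun a : ℤ => ee k a + if (n : ℤ) ∣ a - l then c • ee k (a + d) else 0)

theorem xl_ee (n : ℕ) (l : ℤ) (d : ℕ) (c : k) (a : ℤ) :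
    xl k n l d c (ee k a) = ee k a + if (n : ℤ) ∣ a - l then c • ee k (a + d) else 0 := by
  unfold xl
  rw [Finsupp.linearCombination_single, one_smul]

private theorem lx {f g : E k →ₗ[k] E k} (h : ∀ a, f (ee k a) = g (ee k a)) : f = g := by
  refine Finsupp.lhom_ext' fun a => ?_
  refine LinearMap.ext_ring ?_
  exact h a

private theorem nd {n d : ℕ} (hd : 0 < d ∧ d < n) {x y : ℤ} (hx : (n : ℤ) ∣ x)
    (hy : (n : ℤ) ∣ y) (hxy : y = x + d) : False := by
  have h : (n : ℤ) ∣ (d : ℤ) := by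
    have h1 := dvd_sub hy hx
    rwa [hxy, add_sub_cancel_left] at h1
  exact Nat.not_dvd_of_pos_of_lt hd.1 hd.2 (Int.natCast_dvd_natCast.1 h)

theorem xl_comp (n : ℕ) (l : ℤ) (d : ℕ) (hd : 0 < d ∧ d < n) (c c' : k) :
    (xl k n l d c) ∘ₗ (xl k n l d c') = xl k n l d (c + c') := by
  refine lx k fun a => ?_
  rw [LinearMap.comp_apply, xl_ee, xl_ee, map_add, xl_ee]
  by_cases h : (n : ℤ) ∣ a - l
  · have h' : ¬ (n : ℤ) ∣ a + d - l := fun h2 => nd hd h h2 (by ring)
    rw [if_pos h, if_pos h, if_pos h, map_smul, xl_ee, if_neg h', add_zero, add_smul, add_assoc]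
  · rw [if_neg h, if_neg h, if_neg h, map_zero, add_zero]

theorem xl_zero (n : ℕ) (l : ℤ) (d : ℕ) : xl k n l d 0 = LinearMap.id := by
  refine lx k fun a => ?_
  rw [xl_ee, zero_smul, ite_self, add_zero, LinearMap.id_apply]

/-- `xl` as an automorphism -/
noncomputable def xe (n : ℕ) (l : ℤ) (d : ℕ) (hd : 0 < d ∧ d < n) (c : k) : E k ≃ₗ[k] E k :=
  LinearEquiv.ofLinearMap (xl k n l d c) (xl k n l d (-c))
    (by rw [xl_comp k n l d hd, add_neg_cancel, xl_zero])
    (by rw [xl_comp k n l d hd, neg_add_cancel, xl_zero])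

theorem xe_ee (n : ℕ) (l : ℤ) (d : ℕ) (hd : 0 < d ∧ d < n) (c : k) (a : ℤ) :
    xe k n l d hd c (ee k a) = ee k a + if (n : ℤ) ∣ a - l then c • ee k (a + d) else 0 :=
  xl_ee k n l d c a

private theorem sh_ee' (l b : ℤ) : sh k l (ee k b) = ee k (b + l) := by
  ext c
  rw [sh_apply]
  simp only [ee, Finsupp.single_apply]
  by_cases h : b = c - l
  · rw [if_pos h, if_pos (by omega)]
  · rw [if_neg h, if_neg (by omega)]

theorem xe_mem (n : ℕ) (l : ℤ) (d : ℕ) (hd : 0 < d ∧ d < n) (c : k) :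
    xe k n l d hd c ∈ U k n := by
  apply mem_U_of
  · intro v
    have h : (xl k n l d c) ∘ₗ (sh k n : E k →ₗ[k] E k) =
        (sh k n : E k →ₗ[k] E k) ∘ₗ (xl k n l d c) := by
      refine lx k fun a => ?_
      rw [LinearMap.comp_apply, LinearMap.comp_apply]
      change xl k n l d c (sh k n (ee k a)) = sh k n (xl k n l d c (ee k a))
      rw [sh_ee', xl_ee, xl_ee, map_add, sh_ee']
      by_cases h : (n : ℤ) ∣ a - l
      · have h' : (n : ℤ) ∣ a + n - l := by
          have h1 : a + n - l = (a - l) + n := by ring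
          rw [h1]
          exact dvd_add h (dvd_refl _)
        have h2 : a + (n : ℤ) + d = a + d + n := by ring
        rw [if_pos h, if_pos h', map_smul, sh_ee', h2]
      · have h' : ¬ (n : ℤ) ∣ a + n - l := by
          intro h2
          apply h
          have h1 : a - l = (a + n - l) - n := by ring
          rw [h1]
          exact dvd_sub h2 (dvd_refl _)
        rw [if_neg h, if_neg h', map_zero]
    exact LinearMap.congr_fun h v
  · intro a
    rw [xe_ee, add_sub_cancel_left]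
    split_ifs with h
    · exact Submodule.smul_mem _ _ (ee_mem_M k (by have := hd.1; omega))
    · exact Submodule.zero_mem _

/-- the root homomorphism k → U -/
noncomputable def rt (n : ℕ) (l : ℤ) (d : ℕ) (hd : 0 < d ∧ d < n) : Multiplicative k →* U k n where
  toFun c := ⟨xe k n l d hd (Multiplicative.toAdd c), xe_mem k n l d hd _⟩
  map_one' := by
    apply Subtype.ext
    apply LinearEquiv.toLinearMap_injective
    exact xl_zero k n l d
  map_mul' := by
    intro c c'
    apply Subtype.ext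
    apply LinearEquiv.toLinearMap_injective
    exact (xl_comp k n l d hd (Multiplicative.toAdd c) (Multiplicative.toAdd c')).symm

theorem rt_ee (n : ℕ) (l : ℤ) (d : ℕ) (hd : 0 < d ∧ d < n) (c : k) (a : ℤ) :
    ((rt k n l d hd (Multiplicative.ofAdd c) : U k n) : E k ≃ₗ[k] E k) (ee k a) =
      ee k a + if (n : ℤ) ∣ a - l then c • ee k (a + d) else 0 :=
  xl_ee k n l d c a

/-- elements of U are determined by the images of the basis vectors -/
theorem U_ext_all (n : ℕ) (g h : U k n)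
    (hgh : ∀ a : ℤ, (g : E k ≃ₗ[k] E k) (ee k a) = (h : E k ≃ₗ[k] E k) (ee k a)) : g = h := by
  apply Subtype.ext
  apply LinearEquiv.toLinearMap_injective
  exact lx k hgh

private theorem rt_ee' (n : ℕ) (l : ℤ) (d : ℕ) (hd : 0 < d ∧ d < n) (c : Multiplicative k)
    (a : ℤ) : ((rt k n l d hd c : U k n) : E k ≃ₗ[k] E k) (ee k a) =
      ee k a + if (n : ℤ) ∣ a - l then (Multiplicative.toAdd c) • ee k (a + d) else 0 :=
  xl_ee k n l d _ a

private theorem coe_mul_apply (n : ℕ) (g h : U k n) (v : E k) :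
    ((g * h : U k n) : E k ≃ₗ[k] E k) v = (g : E k ≃ₗ[k] E k) ((h : E k ≃ₗ[k] E k) v) := rfl

theorem rt_congr (n : ℕ) (l l' : ℤ) (d : ℕ) (hd : 0 < d ∧ d < n) (h : (n : ℤ) ∣ l - l') :
    rt k n l d hd = rt k n l' d hd := by
  refine MonoidHom.ext fun c => ?_
  apply U_ext_all
  intro a
  rw [rt_ee', rt_ee']
  by_cases h1 : (n : ℤ) ∣ a - l
  · have h2 : (n : ℤ) ∣ a - l' := by
      have h3 : a - l' = (a - l) + (l - l') := by ring
      rw [h3]
      exact dvd_add h1 h
    rw [if_pos h1, if_pos h2]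
  · have h2 : ¬ (n : ℤ) ∣ a - l' := by
      intro h4
      apply h1
      have h3 : a - l = (a - l') - (l - l') := by ring
      rw [h3]
      exact dvd_sub h4 h
    rw [if_neg h1, if_neg h2]

/-- the commutator relation -/
theorem rt_rel (n : ℕ) (l : ℤ) (d : ℕ) (hd : 0 < d ∧ d < n) (hd' : 0 < d + 1 ∧ d + 1 < n)
    (h1 : 0 < 1 ∧ 1 < n) (a b : k) :
    rt k n (l + d) 1 h1 (Multiplicative.ofAdd a) * rt k n l d hd (Multiplicative.ofAdd b) =
      rt k n l d hd (Multiplicative.ofAdd b) *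
        rt k n l (d + 1) hd' (Multiplicative.ofAdd (a * b)) *
          rt k n (l + d) 1 h1 (Multiplicative.ofAdd a) := by
  apply U_ext_all
  intro x
  rw [coe_mul_apply, coe_mul_apply, coe_mul_apply, rt_ee, rt_ee]
  have e1 : x + (d : ℤ) - (l + d) = x - l := by ring
  by_cases hx : (n : ℤ) ∣ x - l
  · have hx2 : ¬ (n : ℤ) ∣ x - (l + d) := fun h2 => nd hd h2 hx (by ring)
    have hx3 : ¬ (n : ℤ) ∣ x + ((d + 1 : ℕ) : ℤ) - l := fun h2 => nd hd' hx h2 (by ring)
    rw [if_pos hx, if_neg hx2, add_zero, map_add, rt_ee, if_neg hx2, add_zero, map_smul, rt_ee,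
      e1, if_pos hx, rt_ee, if_pos hx, map_add, rt_ee, if_pos hx, map_smul, rt_ee, if_neg hx3,
      add_zero]
    have e2 : x + (d : ℤ) + ((1 : ℕ) : ℤ) = x + ((d + 1 : ℕ) : ℤ) := by push_cast; ring
    rw [e2, smul_add, smul_smul, mul_comm b a, add_assoc]
  · rw [if_neg hx, add_zero, rt_ee]
    by_cases hx2 : (n : ℤ) ∣ x - (l + d)
    · have hx3 : ¬ (n : ℤ) ∣ x + ((1 : ℕ) : ℤ) - l := fun h2 => nd hd' hx2 h2 (by push_cast; ring)
      rw [if_pos hx2, map_add, rt_ee, if_neg hx, add_zero, map_smul, rt_ee, if_neg hx3, add_zero,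
        map_add, rt_ee, if_neg hx, add_zero, map_smul, rt_ee, if_neg hx3, add_zero]
    · rw [if_neg hx2, add_zero, rt_ee, if_neg hx, add_zero, rt_ee, if_neg hx, add_zero]

/-- root elements commute if the roots do not interact -/
theorem rt_comm (n : ℕ) (l l' : ℤ) (d d' : ℕ) (hd : 0 < d ∧ d < n) (hd' : 0 < d' ∧ d' < n)
    (h : ¬ (n : ℤ) ∣ l + d - l') (h' : ¬ (n : ℤ) ∣ l' + d' - l) (a b : Multiplicative k) :
    rt k n l d hd a * rt k n l' d' hd' b = rt k n l' d' hd' b * rt k n l d hd a := by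
  apply U_ext_all
  intro x
  rw [coe_mul_apply, coe_mul_apply, rt_ee', rt_ee', map_add, map_add, rt_ee', rt_ee']
  have key : ∀ (l l' : ℤ) (d d' : ℕ) (hd : 0 < d ∧ d < n) (a b : Multiplicative k),
      ¬ (n : ℤ) ∣ l' + d' - l →
      ((rt k n l d hd a : U k n) : E k ≃ₗ[k] E k)
        (if (n : ℤ) ∣ x - l' then Multiplicative.toAdd b • ee k (x + d') else 0) =
        if (n : ℤ) ∣ x - l' then Multiplicative.toAdd b • ee k (x + d') else 0 := by
    intro l l' d d' hd a b h
    by_cases hx : (n : ℤ) ∣ x - l'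
    · have hx2 : ¬ (n : ℤ) ∣ x + d' - l := by
        intro h2
        apply h
        have h3 : l' + (d' : ℤ) - l = (x + d' - l) - (x - l') := by ring
        rw [h3]
        exact dvd_sub h2 hx
      rw [if_pos hx, map_smul, rt_ee', if_neg hx2, add_zero]
    · rw [if_neg hx, map_zero]
  rw [key l l' d d' hd a b h', key l' l d' d hd' b a h]
  abel

/-- simple root elements of residue ≢ s stabilise L s -/
theorem rt_mem_Hs (n : ℕ) (l : ℤ) (h1 : 0 < 1 ∧ 1 < n) (s : Fin n)
    (h : ¬ (n : ℤ) ∣ ((s : ℕ) : ℤ) - l) (c : Multiplicative k) : rt k n l 1 h1 c ∈ Hs k n s := by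
  have key : ∀ c : Multiplicative k, ∀ v ∈ L k ((s : ℕ) : ℤ),
      ((rt k n l 1 h1 c : U k n) : E k ≃ₗ[k] E k) v ∈ L k ((s : ℕ) : ℤ) := by
    intro c v hv
    have hv1 : v = ∑ a ∈ v.support, v a • ee k a := by
      conv_lhs => rw [← Finsupp.sum_single v]
      rw [Finsupp.sum]
      refine Finset.sum_congr rfl fun a _ => ?_
      rw [Finsupp.smul_single, smul_eq_mul, mul_one]
    rw [hv1, map_sum]
    refine Submodule.sum_mem _ fun a ha => ?_
    have has : a ≤ ((s : ℕ) : ℤ) := by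
      by_contra hcon
      exact (Finsupp.mem_support_iff.1 ha) (hv a (not_le.1 hcon))
    have hee : ∀ {i j : ℤ}, i ≤ j → ee k i ∈ L k j := fun h => ee_mem_L h
    rw [map_smul, rt_ee']
    refine Submodule.smul_mem _ _ (Submodule.add_mem _ (hee has) ?_)
    by_cases hal : (n : ℤ) ∣ a - l
    · rw [if_pos hal]
      refine Submodule.smul_mem _ _ (hee ?_)
      have hne : a ≠ ((s : ℕ) : ℤ) := by
        rintro rfl
        exact h hal
      push_cast
      omega
    · rw [if_neg hal]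
      exact Submodule.zero_mem _
  show ((rt k n l 1 h1 c : U k n) : E k ≃ₗ[k] E k) ∈ St k ((s : ℕ) : ℤ)
  show (L k ((s : ℕ) : ℤ)).map (((rt k n l 1 h1 c : U k n) : E k ≃ₗ[k] E k) : E k →ₗ[k] E k) =
    L k ((s : ℕ) : ℤ)
  apply le_antisymm
  · rintro _ ⟨v, hv, rfl⟩
    exact key c v hv
  · intro v hv
    refine ⟨((rt k n l 1 h1 c⁻¹ : U k n) : E k ≃ₗ[k] E k) v, key c⁻¹ v hv, ?_⟩
    show ((rt k n l 1 h1 c : U k n) : E k ≃ₗ[k] E k)
      (((rt k n l 1 h1 c⁻¹ : U k n) : E k ≃ₗ[k] E k) v) = v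
    rw [← coe_mul_apply, ← map_mul, mul_inv_cancel, map_one]
    rfl

end Vale.P067.S
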